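import Vale.Agent.P011.Six.H586.Nu
import Vale.Agent.P011.Six.Sys
import Vale.Agent.P011.Two2.Tern

/-!
Degree six (helper586): existence of the auxiliary unitary element.
-/

open Module Matrix Polynomial NumberField IsDedekindDomain Filter Topology

set_option linter.unusedSectionVars false

namespace Vale.Agent.P011.Six.H586

open Vale.Agent.P011.Arith Vale.Agent.P011.Even Vale.Agent.P011.One
open Vale.Agent.P011.Two hiding cay
open Vale.Agent.P011.Six.H359 (Fr th)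
open Vale.Agent.P011.W (HasNrd)

variable {k K D : Type} [Field k] [NumberField k] [Field K] [NumberField K] [StarRing K]
    [DivisionRing D] [StarRing D] [Algebra k K] [Algebra k D] [Algebra K D] [IsScalarTower k K D]
    {d : kˣ} {s : K} {al be : kˣ} {i j : D}

/-- Stability of the classes. -/
theorem cls_stable (p : Pl k) {u₀ : k} (hu₀ : u₀ ≠ 0)
    (h : ∀ u : kˣ, (u : k) = u₀ → u ∉ LSp p) :
    ∃ ε : ℝ, 0 < ε ∧ ∀ x : k, plAbv p (x - u₀) < ε → x ≠ 0 ∧ ∀ u : kˣ, (u : k) = x → u ∉ LSp p := by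
  have h1 := h (Units.mk0 u₀ hu₀) rfl
  rcases p with v | φ
  · have h2 : ¬ IsSquare (algebraMap k (v.adicCompletion k) u₀) := fun h3 =>
      h1 ((isSquare_iff v (Units.mk0 u₀ hu₀)).mp h3)
    obtain ⟨ε, hε, H⟩ := Metric.eventually_nhds_iff.mp (open_inl v _ h2)
    refine ⟨ε, hε, fun x hx => ?_⟩
    have h3 := H (y := algebraMap k (v.adicCompletion k) x) (by
      rw [dist_eq_norm, ← map_sub, norm_algebraMap_eq]
      exact hx)
    refine ⟨?_, fun u hu hup => h3 ?_⟩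
    · rintro rfl
      exact h3 ⟨0, by rw [map_zero, mul_zero]⟩
    · rw [← hu]
      exact (isSquare_iff v u).mpr hup
  · have h2 : φ u₀ < 0 := by
      have h3 : ¬ 0 < φ u₀ := h1
      rcases lt_trichotomy (φ u₀) 0 with h4 | h4 | h4
      · exact h4
      · exact absurd h4 ((_root_.map_ne_zero φ).mpr hu₀)
      · exact absurd h4 h3
    refine ⟨-φ u₀, by linarith, fun x hx => ?_⟩
    rw [plAbv_inr, map_sub, abs_lt] at hx
    have h3 : φ x < 0 := by linarith [hx.2]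
    refine ⟨?_, fun u hu hup => ?_⟩
    · rintro rfl
      rw [map_zero] at h3
      exact lt_irrefl _ h3
    · have h4 : 0 < φ u := hup
      rw [hu] at h4
      exact absurd h4 (not_lt.mpr h3.le)

theorem be_not_mem (hF : Fr k al be i j) (hS : Setting k K D d s) : be ∉ NF al := by
  have _ : CharZero D := charZero_of_injective_algebraMap (algebraMap k D).injective
  exact not_mem_NF_of_fr (F := k) (k := k) (ι := Algebra.ofId k D)
    { sym := fun x => Even.star_alg hS x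
      si := hF.si
      sj := hF.sj
      ii := hF.ii
      jj := hF.jj
      ij := hF.ij
      ci := fun x => Algebra.commutes x i
      cj := fun x => Algebra.commutes x j }

theorem bad_nonempty (hF : Fr k al be i j) (hS : Setting k K D d s) : (bad al be).Nonempty := by
  rw [Set.nonempty_iff_ne_empty]
  intro h
  exact be_not_mem hF hS (mem_NF_of_bad h)

theorem bad_real {φ : k →+* ℝ} (ha : φ al < 0) (hb : φ be < 0) :
    (Sum.inr φ : Pl k) ∈ bad al be := by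
  intro h
  have h1 : NF al ⊔ LSR φ = LSR φ := sup_eq_right.mpr (NF_le_LSR ha)
  have h2 : be ∈ NF al ⊔ LSR φ := h
  rw [h1] at h2
  exact absurd (show 0 < φ be from h2) (not_lt.mpr hb.le)

section main

variable {M : ℕ} (B : Module.Basis (Fin M) k D) {Ω : Type} [Field Ω] [Algebra K Ω]
  (f : D →ₐ[K] Matrix (Fin 6) (Fin 6) Ω)

/-- The element `κ`. -/
theorem exists_kappa (hS : Setting k K D d s) (hdeg : finrank K D = 6 ^ 2) {y : D}
    (hy : YEl (k := k) d al be i j y) {S : Set (HeightOneSpectrum (𝓞 k))} (hSf : S.Finite)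
    (η : HeightOneSpectrum (𝓞 k) → ℝ) (hη : ∀ v, 0 < η v) {e : ℕ} (he : e ≠ 0) :
    ∃ κ : D, κ * star κ = 1 ∧ (f κ).det = 1 ∧ κ * i = i * κ ∧ κ * j = j * κ ∧
      (∀ v ∈ S, nm B (.inl v) (κ ^ e - 1) < η v) ∧
      Dt k (2 + κ ^ e * κ ^ e + (κ ^ e * κ ^ e)⁻¹) ≠ 0 ∧
      ∀ p ∈ bad al be, ∀ u : kˣ, (u : k) = d * Dt k (2 + κ ^ e * κ ^ e + (κ ^ e * κ ^ e)⁻¹) →
        u ∉ LSp p := by
  have hDc : CharZero D := charZero_of_injective_algebraMap (algebraMap k D).injective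
  have := hS.fin
  have := hS.cen
  have := hS.fin_k
  obtain ⟨σ, hσd⟩ : ∃ σ, σ = algebraMap K D s * y := ⟨_, rfl⟩
  have hσ : star σ = -σ := by
    rw [hσd, star_mul, hy.sym, star_S hS, mul_neg, ← Algebra.commutes]
  -- an element not commuting with σ
  have hyK : ∃ g : D, y * g ≠ g * y := by
    by_contra hcon
    push Not at hcon
    have h1 : y ∈ Subalgebra.center K D := by
      rw [Subalgebra.mem_center_iff]
      exact fun g => (hcon g).symm
    obtain ⟨c, hc⟩ := Algebra.mem_bot.mp (Algebra.IsCentral.out h1)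
    have h2 : star c = c := by
      apply (algebraMap K D).injective
      rw [← star_algK hS, hc, hy.sym]
    obtain ⟨r, hr⟩ := (hS.fix c).mp h2
    have h3 := hy.deg
    have h4 : y = algebraMap k D r := by
      rw [← hc, ← hr, ← IsScalarTower.algebraMap_apply]
    rw [h4, minpoly.eq_X_sub_C, natDegree_X_sub_C] at h3
    norm_num at h3
  obtain ⟨g, hg⟩ := hyK
  have hs0 : algebraMap K D s ≠ 0 := (_root_.map_ne_zero _).mpr hS.s_ne
  have hσg : σ * g ≠ g * σ := by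
    intro h
    apply hg
    apply mul_left_cancel₀ hs0
    rw [hσd, mul_assoc, ← mul_assoc g, ← Algebra.commutes s g, mul_assoc] at h
    exact h
  have hwu : ∀ r : k, cay (r • σ) * star (cay (r • σ)) = 1 := fun r =>
    cay_mul_star (star_smul_skew hS hσ r)
  choose c hc hcc using fun r : k => exists_nrd_unit hS hdeg (hwu r)
  obtain ⟨κ, hκ⟩ : ∃ κ : k → D, κ = fun r => cay (r • σ) ^ 6 * algebraMap K D (c r)⁻¹ := ⟨_, rfl⟩
  have hnear : ∀ v : HeightOneSpectrum (𝓞 k), ∃ δ : ℝ, 0 < δ ∧ ∀ r : k, plAbv (.inl v) r < δ →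
      nm B (.inl v) (κ r ^ e - 1) < η v := by
    intro v
    have h1 : Tn B (.inl v) (zf (.inl v)) (fun r : k => κ r ^ e) 1 := by
      have h2 := tn_w (B := B) (p := .inl v) σ
      have h3 := tn_nrd B (.inl v) hS hdeg h2 hc
      have h4 := (tn_pow h2 6).mul (h3.inv one_ne_zero)
      rw [one_pow, inv_one, mul_one] at h4
      have h5 : (fun r => cay (r • σ) ^ 6 * (algebraMap K D (c r))⁻¹) = κ := by
        rw [hκ]
        funext r
        rw [map_inv₀]
      rw [h5] at h4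
      have h6 := tn_pow h4 e
      rwa [one_pow] at h6
    exact ev_zf (h1.ev_lt (hη v))
  choose δ₁ hδ₁ H₁ using hnear
  obtain ⟨v₀, -⟩ := Pow.exists_out (k := k) Set.finite_empty
  obtain ⟨δ₂, hδ₂, H₂⟩ := pow_noncentral hS B (.inl v₀) hσ hσg (m := 12 * e)
    (mul_ne_zero (by norm_num) he)
  obtain ⟨r, hr0, hr⟩ := exists_small (T := insert v₀ S) (hSf.insert v₀)
    (fun v => min (δ₁ v) δ₂) (fun v => lt_min (hδ₁ v) hδ₂)
  have hnc := H₂ r hr0 ((hr v₀ (Set.mem_insert _ _)).trans_le (min_le_right _ _))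
  obtain ⟨k1, k2⟩ := kappa_facts hS (hwu r) (hc r) (hcc r)
  obtain ⟨k3, k4⟩ := cls_nu hS hdeg hy (e := e) (hwu r) (hc r) (hcc r) ⟨r, by rw [hσd]⟩ hnc
  have hcomm : ∀ z : D, y * z = z * y → κ r * z = z * κ r := by
    intro z hz
    have c1 : Commute σ z := by
      rw [hσd]
      exact (show Commute (algebraMap K D s) z from Algebra.commutes _ _).mul_left hz
    have c2 : Commute (r • σ) z := c1.smul_left r
    have c3 : Commute (cay (r • σ)) z := by
      rw [cay]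
      exact ((Commute.one_left z).sub_left c2).mul_left
        (((Commute.one_left z).add_left c2).inv_left₀)
    rw [hκ]
    exact (c3.pow_left 6).mul_left (show Commute (algebraMap K D (c r)⁻¹) z from
      Algebra.commutes _ _)
  have hκr : κ r = cay (r • σ) ^ 6 * algebraMap K D (c r)⁻¹ := by rw [hκ]
  rw [← hκr] at k1 k2 k3 k4
  refine ⟨κ r, k1, ?_, hcomm i hy.ci, hcomm j hy.cj, fun v hv => ?_, k3, k4⟩
  · rw [k2 Ω f, map_one]
  · exact H₁ v r ((hr v (Set.mem_insert_of_mem _ hv)).trans_le (min_le_left _ _))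

/-- Continuity of the discriminant at one. -/
theorem disc_near (p : Pl k) {ν : D} (hj0 : j ≠ 0) (hν0 : ν ≠ 0) (hνj : ν * j = j * ν)
    {ε : ℝ} (hε : 0 < ε) :
    ∃ η' : ℝ, 0 < η' ∧ ∀ x : D, nm B p (x - 1) < η' →
      plAbv p (d * Dt k (2 + th j (x * ν) + (th j (x * ν))⁻¹) -
        d * Dt k (2 + ν * ν + (ν * ν)⁻¹)) < ε := by
  refine near_of_tn (B := B) (p := p)
    (F := fun x => d * Dt k (2 + th j (x * ν) + (th j (x * ν))⁻¹)) (fun {l} hl => ?_) hε
  have hth : th j (1 * ν) = ν * ν := by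
    rw [one_mul, th, ← hνj, mul_assoc ν, mul_inv_cancel₀ hj0, mul_one]
  have t1 : Tn B p l (fun x : D => th j (x * ν)) (ν * ν) := by
    have t2 : Tn B p l (fun x : D => x * ν) (1 * ν) := hl.mul (Tn.const ν)
    have t3 : Tn B p l (fun x : D => j * (x * ν) * j⁻¹ * (x * ν)) (j * (1 * ν) * j⁻¹ * (1 * ν)) :=
      (((Tn.const j).mul t2).mul (Tn.const j⁻¹)).mul t2
    rw [← hth]
    exact t3
  have t4 := tn_Dt (((Tn.const (2 : D)).add t1).add (t1.inv (mul_ne_zero hν0 hν0)))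
  have t5 := (Tn.const (algebraMap k D (d : k))).mul t4
  have e1 : (fun x : D => algebraMap k D ((d : k) * Dt k (2 + th j (x * ν) + (th j (x * ν))⁻¹))) =
      fun x : D => algebraMap k D (d : k) *
        algebraMap k D (Dt k (2 + th j (x * ν) + (th j (x * ν))⁻¹)) := by
    funext x
    rw [map_mul]
  rw [e1, map_mul]
  exact t5

/-- The local radii. -/
theorem exists_rad (hF : Fr k al be i j) {ν : D} (hν0 : ν ≠ 0)
    (hνj : ν * j = j * ν)
    (h0 : Dt k (2 + ν * ν + (ν * ν)⁻¹) ≠ 0) (p : Pl k)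
    (hcl : ∀ u : kˣ, (u : k) = d * Dt k (2 + ν * ν + (ν * ν)⁻¹) → u ∉ LSp p) :
    ∃ η' : ℝ, 0 < η' ∧ ∀ x : D, nm B p (x - 1) < η' →
      d * Dt k (2 + th j (x * ν) + (th j (x * ν))⁻¹) ≠ 0 ∧ ∀ u : kˣ,
        (u : k) = d * Dt k (2 + th j (x * ν) + (th j (x * ν))⁻¹) → u ∉ LSp p := by
  obtain ⟨ε, hε, H⟩ := cls_stable p (mul_ne_zero d.ne_zero h0) hcl
  obtain ⟨η', hη', H'⟩ := disc_near (d := d) B p hF.j_ne hν0 hνj hε
  exact ⟨η', hη', fun x hx => H _ (H' x hx)⟩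

/-- All the local radii. -/
theorem exists_rads (hF : Fr k al be i j) {ν : D} (hν0 : ν ≠ 0)
    (hνj : ν * j = j * ν) (h0 : Dt k (2 + ν * ν + (ν * ν)⁻¹) ≠ 0)
    (hcl : ∀ p ∈ bad al be, ∀ u : kˣ, (u : k) = d * Dt k (2 + ν * ν + (ν * ν)⁻¹) → u ∉ LSp p) :
    ∃ η' : Pl k → ℝ, (∀ p, 0 < η' p) ∧ ∀ p ∈ bad al be, ∀ x : D, nm B p (x - 1) < η' p →
      d * Dt k (2 + th j (x * ν) + (th j (x * ν))⁻¹) ≠ 0 ∧ ∀ u : kˣ,
        (u : k) = d * Dt k (2 + th j (x * ν) + (th j (x * ν))⁻¹) → u ∉ LSp p := by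
  have hloc : ∀ p : Pl k, ∃ η' : ℝ, 0 < η' ∧ (p ∈ bad al be → ∀ x : D, nm B p (x - 1) < η' →
      d * Dt k (2 + th j (x * ν) + (th j (x * ν))⁻¹) ≠ 0 ∧ ∀ u : kˣ,
        (u : k) = d * Dt k (2 + th j (x * ν) + (th j (x * ν))⁻¹) → u ∉ LSp p) := by
    intro p
    by_cases hp : p ∈ bad al be
    · obtain ⟨η', hη', H⟩ := exists_rad (d := d) B hF hν0 hνj h0 p (hcl p hp)
      exact ⟨η', hη', fun _ => H⟩
    · exact ⟨1, one_pos, fun h => absurd h hp⟩
  choose η' hη' H using hloc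
  exact ⟨η', hη', H⟩

omit [NumberField k] in
theorem tern_rw {a c e' y p q δ : k} (h : e' = a * y ^ 2 + c * (p ^ 2 - a * q ^ 2))
    (hδ : e' = δ) : a * y ^ 2 + c * p ^ 2 - a * c * q ^ 2 = δ := by
  rw [← hδ, h]
  ring

/-- `al` is not a square. -/
theorem nsq_al (hS : Setting k K D d s) (hF : Fr k al be i j) : ¬ IsSquare (al : k) := by
  rintro ⟨r, hr⟩
  refine hF.nsq_ad hS ⟨r * d, ?_⟩
  rw [Units.val_mul, Units.val_mul, hr]
  ring

/-- From the classes to the ternary form. -/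
theorem exists_tern (hS : Setting k K D d s) (hF : Fr k al be i j) {δ : k}
    (H : ∀ p ∈ bad al be, δ ≠ 0 ∧ ∀ u : kˣ, (u : k) = δ → u ∉ LSp p) :
    ∃ e1 e2 e3 : k, al * e1 ^ 2 + be * e2 ^ 2 - al * be * e3 ^ 2 = δ := by
  obtain ⟨p₀, hp₀⟩ := bad_nonempty hF hS
  obtain ⟨ε, hε⟩ : ∃ ε : kˣ, (ε : k) = δ := ⟨Units.mk0 _ (H p₀ hp₀).1, rfl⟩
  have hfin : ∀ v : HeightOneSpectrum (𝓞 k), be ∉ NF al ⊔ LS (v.valuation k) →
      ε ∉ LS (v.valuation k) := by
    intro w hw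
    have hw' : (Sum.inl w : Pl k) ∈ bad al be := hw
    have h : ε ∉ LSp (.inl w : Pl k) := (H (.inl w) hw').2 ε hε
    exact h
  have hre : ∀ ψ : k →+* ℝ, ψ al < 0 → ψ be < 0 → ψ ε < 0 := by
    intro ψ ha hb
    have hb' : (Sum.inr ψ : Pl k) ∈ bad al be := bad_real ha hb
    have h : ε ∉ LSp (.inr ψ : Pl k) := (H (.inr ψ) hb').2 ε hε
    exact notMem_LSR.mp h
  obtain ⟨e1, e2, e3, he, -⟩ := Two2.ternary (nsq_al hS hF) be ε hfin hre
  exact ⟨e1, e2, e3, tern_rw he hε⟩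

/-- The ternary form represents the discriminant. -/
theorem tern_disc (hS : Setting k K D d s) (hdeg : finrank K D = 6 ^ 2) (hF : Fr k al be i j)
    {z : D} (H : ∀ p ∈ bad al be, d * Dt k z ≠ 0 ∧ ∀ u : kˣ, (u : k) = d * Dt k z → u ∉ LSp p)
    (L : Type) [Field L] [Algebra k L] (ι : L →ₐ[k] D) (c : L) (h3 : finrank k L = 3)
    (hc : ι c = z) :
    ∃ e1 e2 e3 : k, al * e1 ^ 2 + be * e2 ^ 2 - al * be * e3 ^ 2 =
      d * Algebra.discr k (fun a : Fin 3 => c ^ (a : ℕ)) := by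
  have hD72 : finrank k D = 72 := by
    rw [← Module.finrank_mul_finrank k K D, hS.rank, hdeg]
    norm_num
  rw [discr_eq_dsc h3, ← Dt_eq hD72 h3 ι c, hc]
  exact exists_tern hS hF H

/-- The existence theorem, in terms of the local splittings. -/
theorem exists_nu' (hS : Setting k K D d s) (hdeg : finrank K D = 6 ^ 2) (hF : Fr k al be i j)
    (hp : ∀ p ∈ bad al be, SplP k K (CC K i j) d p)
    {S : Set (HeightOneSpectrum (𝓞 k))} (hSf : S.Finite)
    (η : HeightOneSpectrum (𝓞 k) → ℝ) (hη : ∀ v, 0 < η v) {e : ℕ} (he : e ≠ 0) :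
    ∃ κ : D, κ * star κ = 1 ∧ (f κ).det = 1 ∧ κ * i = i * κ ∧ κ * j = j * κ ∧
      (∀ v ∈ S, nm B (.inl v) (κ ^ e - 1) < η v) ∧
      ∃ η' : Pl k → ℝ, (∀ p, 0 < η' p) ∧ ∀ x : D,
        (∀ p ∈ bad al be, nm B p (x - 1) < η' p) →
        ∀ (L : Type) [Field L] [Algebra k L] (ι : L →ₐ[k] D) (c : L), finrank k L = 3 →
          ι c = 2 + th j (x * κ ^ e) + (th j (x * κ ^ e))⁻¹ →
          ∃ e1 e2 e3 : k, al * e1 ^ 2 + be * e2 ^ 2 - al * be * e3 ^ 2 =
            d * Algebra.discr k (fun a : Fin 3 => c ^ (a : ℕ)) := by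
  obtain ⟨y, hy⟩ := exists_Y hS hdeg hF (bad_nonempty hF hS) hp
  obtain ⟨κ, h1, h2, hi, hj, hn, h0, hcl⟩ := exists_kappa B f hS hdeg hy hSf η hη he
  have hκ0 : κ ≠ 0 := left_ne_zero_of_mul_eq_one h1
  have hνj : κ ^ e * j = j * κ ^ e := (show Commute κ j from hj).pow_left e
  obtain ⟨η', hη', H⟩ := exists_rads (d := d) B hF (pow_ne_zero e hκ0) hνj h0 hcl
  exact ⟨κ, h1, h2, hi, hj, hn, η', hη', fun x hx L _ _ ι c h3 hc =>
    tern_disc hS hdeg hF (fun p hp => H p hp x (hx p hp)) L ι c h3 hc⟩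

end main

end Vale.Agent.P011.Six.H586
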