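import Vale.Agent.P011.Even.Beta

/-!
Degree six (helper586): discriminants of symmetric elements of degree three, local conditions.
-/

open Module Matrix Polynomial NumberField IsDedekindDomain TensorProduct Filter Topology
open Vale.Agent.P011.RP (RData)

set_option linter.unusedSectionVars false

namespace Vale.Agent.P011.Six.H586

open Vale.Agent.P011.Arith Vale.Agent.P011.Even

/-- The discriminant of a monic cubic polynomial. -/
def cd {R : Type} [CommRing R] (m : R[X]) : R :=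
  m.coeff 2 ^ 2 * m.coeff 1 ^ 2 - 4 * m.coeff 1 ^ 3 - 4 * m.coeff 2 ^ 3 * m.coeff 0 -
    27 * m.coeff 0 ^ 2 + 18 * m.coeff 2 * m.coeff 1 * m.coeff 0

theorem cd_map {R S : Type} [CommRing R] [CommRing S] (φ : R →+* S) (m : R[X]) :
    cd (m.map φ) = φ (cd m) := by
  simp only [cd, coeff_map, map_add, map_sub, map_mul, map_pow, map_ofNat]

theorem prod_three {R : Type} [CommRing R] (r : Fin 3 → R) :
    ∏ i, (X - C (r i)) = X ^ 3 + C (-(r 0 + r 1 + r 2)) * X ^ 2 +
      C (r 0 * r 1 + r 0 * r 2 + r 1 * r 2) * X + C (-(r 0 * r 1 * r 2)) := by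
  rw [Fin.prod_univ_three]
  simp only [map_neg, map_add, map_mul]
  ring

theorem cd_cubic {R : Type} [CommRing R] (a b c : R) :
    cd (X ^ 3 + C a * X ^ 2 + C b * X + C c : R[X]) =
      a ^ 2 * b ^ 2 - 4 * b ^ 3 - 4 * a ^ 3 * c - 27 * c ^ 2 + 18 * a * b * c := by
  have h2 : (X ^ 3 + C a * X ^ 2 + C b * X + C c : R[X]).coeff 2 = a := by
    simp [coeff_X, coeff_C]
  have h1 : (X ^ 3 + C a * X ^ 2 + C b * X + C c : R[X]).coeff 1 = b := by
    simp [coeff_C, coeff_X_pow]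
  have h0 : (X ^ 3 + C a * X ^ 2 + C b * X + C c : R[X]).coeff 0 = c := by
    simp
  rw [cd, h2, h1, h0]

theorem cd_prod {R : Type} [CommRing R] (r : Fin 3 → R) :
    cd (∏ i, (X - C (r i))) = ((r 0 - r 1) * (r 0 - r 2) * (r 1 - r 2)) ^ 2 := by
  rw [prod_three, cd_cubic]
  ring

theorem cd_near {R : Type} [NormedField R] (δ : R) (q : R[X]) {P : R → Prop}
    (hP : ∀ᶠ y in 𝓝 (δ * cd q), P y) :
    ∃ ε : ℝ, 0 < ε ∧ ∀ m : R[X], (∀ i, ‖m.coeff i - q.coeff i‖ < ε) → P (δ * cd m) := by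
  let F : R × R × R → R := fun y => δ * (y.1 ^ 2 * y.2.1 ^ 2 - 4 * y.2.1 ^ 3 -
    4 * y.1 ^ 3 * y.2.2 - 27 * y.2.2 ^ 2 + 18 * y.1 * y.2.1 * y.2.2)
  have hF : Continuous F := by
    refine continuous_const.mul ?_
    refine ((((Continuous.mul (by fun_prop) (by fun_prop)).sub
      (Continuous.mul (by fun_prop) (by fun_prop))).sub
      (Continuous.mul (by fun_prop) (by fun_prop))).sub
      (Continuous.mul (by fun_prop) (by fun_prop))).add
      (Continuous.mul (by fun_prop) (by fun_prop))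
  have h1 := (hF.tendsto (q.coeff 2, q.coeff 1, q.coeff 0)).eventually hP
  obtain ⟨ε, hε, h⟩ := Metric.eventually_nhds_iff.mp h1
  refine ⟨ε, hε, fun m hm => h (y := (m.coeff 2, m.coeff 1, m.coeff 0)) ?_⟩
  rw [Prod.dist_eq, Prod.dist_eq, max_lt_iff, max_lt_iff, dist_eq_norm, dist_eq_norm, dist_eq_norm]
  exact ⟨hm 2, hm 1, hm 0⟩

section

variable {k K D : Type} [Field k] [NumberField k] [Field K] [StarRing K]
    [DivisionRing D] [StarRing D] [Algebra k K] [Algebra k D] [Algebra K D] [IsScalarTower k K D]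
    {d : kˣ} {s : K} {N : ℕ}

/-- The condition on a symmetric element at a place. -/
def GoodY (d : k) (p : Pl k) (z : D) : Prop :=
  LinearIndependent k (fun i : Fin 3 => z ^ (i : ℕ)) ∧
    ∀ m : k[X], m.Monic → m.natDegree = 3 → aeval z m = 0 → cd m ≠ 0 ∧
      ∀ u : kˣ, (u : k) = d * cd m → u ∉ LSp p

/-- The general local condition. -/
theorem good_of (B : Basis (Fin N) k D) (d : k) (p : Pl k) {R : Type} [NormedField R] [Algebra k R]
    (hp : ∀ c : k, ‖algebraMap k R c‖ = plAbv p c)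
    (hdense : ∀ (x : R) (ε : ℝ), 0 < ε → ∃ c : k, ‖algebraMap k R c - x‖ < ε)
    (hopen : ∀ x : R, ¬ IsSquare x → ∀ᶠ y in 𝓝 x, ¬ IsSquare y)
    (hsq : ∀ u : kˣ, u ∈ LSp p → IsSquare (algebraMap k R u))
    {A : Type} [Ring A] [Algebra R A] {ι : Type} [Fintype ι] (BA : Basis ι R A) (g : D →+* A)
    (hg : ∀ (a : k) x, g (a • x) = algebraMap k R a • g x)
    (τ : A →ₗ[R] A) (hτ : ∀ x, τ (g x) = g (star x)) (b : Fin N → R)
    (hli : LinearIndependent R (fun i : Fin 3 =>
      ((∑ j, b j • g (B j)) * τ (∑ j, b j • g (B j))) ^ (i : ℕ)))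
    {q : R[X]} (hq : q.Monic) (hqn : q.natDegree = 3)
    (hq0 : aeval ((∑ j, b j • g (B j)) * τ (∑ j, b j • g (B j))) q = 0)
    (hns : ¬ IsSquare (algebraMap k R d * cd q)) :
    ∃ (x : Fin N → k) (δ : ℝ), 0 < δ ∧ ∀ β : D, (∀ j, plAbv p (B.repr β j - x j) < δ) →
      GoodY d p (β * star β) := by
  classical
  obtain ⟨ε, hε, hnear⟩ := cd_near (algebraMap k R d) q (hopen _ hns)
  have e1 : ∀ y : A, g (1 : D)⁻¹ * y * g (1 : D) * τ y = y * τ y := fun y => by
    rw [inv_one, map_one, one_mul, mul_one]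
  obtain ⟨δ, hδ, h⟩ := near_D (F := R) B BA g hg τ hτ 1 1 b (n := 3)
    (by simp only [e1]; exact hli) hq hqn (by rw [e1]; exact hq0) hε
  choose x hx using fun j => hdense (b j) (δ / 2) (half_pos hδ)
  refine ⟨x, δ / 2, half_pos hδ, fun β hβ => ?_⟩
  have e2 : (1 : D)⁻¹ * β * 1 * star β = β * star β := by rw [inv_one, one_mul, mul_one]
  have h1 := h β (fun j => by
    have e3 : algebraMap k R (B.repr β j) - b j =
        algebraMap k R (B.repr β j - x j) + (algebraMap k R (x j) - b j) := by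
      rw [map_sub]; ring
    rw [e3]
    refine (norm_add_le _ _).trans_lt ?_
    have e4 := hβ j
    rw [← hp] at e4
    have e5 := hx j
    linarith)
  rw [e2] at h1
  obtain ⟨h2, h3⟩ := h1
  refine ⟨h2, fun m hm hmn hm0 => ?_⟩
  have h4 := hnear (m.map (algebraMap k R)) fun i => by
    rw [coeff_map]
    exact h3 m hm hmn hm0 i
  rw [cd_map, ← map_mul] at h4
  refine ⟨fun h0 => h4 ⟨0, by rw [h0, mul_zero, map_zero, mul_zero]⟩, fun u hu hup => h4 ?_⟩
  rw [← hu]
  exact hsq u hup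

/-- Nonsquares are stable in the completions. -/
theorem open_inl (v : HeightOneSpectrum (𝓞 k)) (x : v.adicCompletion k) (hx : ¬ IsSquare x) :
    ∀ᶠ y in 𝓝 x, ¬ IsSquare y := by
  have hx0 : x ≠ 0 := by
    rintro rfl
    exact hx ⟨0, by rw [mul_zero]⟩
  have h4 : (4 : v.adicCompletion k) ≠ 0 := by norm_num
  have hc : Tendsto (fun y : v.adicCompletion k => y / x - 1) (𝓝 x) (𝓝 0) := by
    have h1 : ContinuousAt (fun y : v.adicCompletion k => y / x - 1) x :=
      (continuousAt_id.div_const x).sub continuousAt_const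
    have h2 := h1.tendsto
    rwa [div_self hx0, sub_self] at h2
  have h1 : ∀ᶠ y in 𝓝 x, ‖y / x - 1‖ < ‖(4 : v.adicCompletion k)‖ := by
    have h2 := (tendsto_zero_iff_norm_tendsto_zero.mp hc)
    exact (tendsto_order.mp h2).2 _ (norm_pos_iff.mpr h4)
  filter_upwards [h1, hc.eventually (eventually_ne_nhds (show (0 : v.adicCompletion k) ≠ -1 by
    norm_num))] with y hy hy1
  rintro ⟨z, hz⟩
  rw [Even.norm_lt_iff] at hy
  obtain ⟨w, hw⟩ := isSquare_of_close v hy
  have hy0 : y ≠ 0 := by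
    rintro rfl
    rw [zero_div, zero_sub] at hy1
    exact hy1 rfl
  have hw0 : w ≠ 0 := by
    rintro rfl
    rw [mul_zero, div_eq_zero_iff] at hw
    exact hw.elim hy0 hx0
  apply hx
  refine ⟨z / w, ?_⟩
  field_simp at hw ⊢
  rw [pow_two, pow_two, ← hz, hw]
  ring

theorem open_real (x : ℝ) (hx : ¬ IsSquare x) : ∀ᶠ y in 𝓝 x, ¬ IsSquare y := by
  have h1 : x < 0 := by
    by_contra h
    rw [not_lt] at h
    exact hx ⟨√x, (Real.mul_self_sqrt h).symm⟩
  filter_upwards [eventually_lt_nhds h1] with y hy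
  rintro ⟨z, rfl⟩
  exact absurd hy (not_lt.mpr (mul_self_nonneg z))

theorem dense_real (φ : k →+* ℝ) (x : ℝ) (ε : ℝ) (hε : 0 < ε) : ∃ c : k, ‖φ c - x‖ < ε := by
  obtain ⟨q, hq1, hq2⟩ := exists_rat_btwn (show x - ε < x + ε by linarith)
  refine ⟨(q : k), ?_⟩
  rw [map_ratCast, Real.norm_eq_abs, abs_lt]
  constructor <;> linarith

/-- The condition at a nonsplit finite place. -/
theorem goodY_inl (hS : Setting k K D d s) (hdeg : finrank K D = 3 ^ 2)
    (B : Basis (Fin N) k D) (v : HeightOneSpectrum (𝓞 k)) (hv : d ∉ LS (v.valuation k)) :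
    ∃ (x : Fin N → k) (δ : ℝ), 0 < δ ∧ ∀ β : D, (∀ j, plAbv (.inl v) (B.repr β j - x j) < δ) →
      GoodY (d : k) (.inl v) (β * star β) := by
  classical
  let F := v.adicCompletion k
  obtain ⟨r, T, hr, hli, hz⟩ := loc_split hS hdeg v hv (star_one D) (star_one D) one_ne_zero
    one_ne_zero
  let g : D →+* F ⊗[k] D := (Algebra.TensorProduct.includeRight : D →ₐ[k] F ⊗[k] D).toRingHom
  have hgx : ∀ x, g x = 1 ⊗ₜ x := fun x => rfl
  let BA := Algebra.TensorProduct.basis F B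
  have hT : ∑ j, BA.repr T j • g (B j) = T := by
    conv_rhs => rw [← BA.sum_repr T]
    refine Finset.sum_congr rfl fun j _ => ?_
    rw [Algebra.TensorProduct.basis_apply, hgx]
  have hd : ¬ IsSquare (algebraMap k F (d : k)) := fun h => hv ((isSquare_iff v d).mp h)
  refine good_of B (d : k) (.inl v) (R := F) (norm_algebraMap_eq v) (fun x ε hε => by
    obtain ⟨y, hy⟩ := dense v x ε hε
    exact ⟨y, by rwa [norm_sub_rev]⟩) (open_inl v)
    (fun u hu => (isSquare_iff v u).mpr hu) BA g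
    (fun a x => by
      rw [hgx, hgx, TensorProduct.tmul_smul, ← algebraMap_smul F a ((1 : F) ⊗ₜ[k] x)])
    (hS.sig.baseChange F) (fun x => by rw [hgx, hgx, LinearMap.baseChange_tmul]; rfl)
    (fun j => BA.repr T j) (q := ∏ i, (X - C (algebraMap k F (r i)))) ?_
    (monic_prod_of_monic _ _ fun i _ => monic_X_sub_C _) (natDegree_prod_X_sub_C' _) ?_ ?_
  · rw [hT]
    have h1 := hli
    simp only [inv_one, ← Algebra.TensorProduct.one_def, one_mul, mul_one] at h1
    exact h1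
  · rw [hT]
    have h1 := hz
    simp only [inv_one, ← Algebra.TensorProduct.one_def, one_mul, mul_one] at h1
    exact h1
  · rw [cd_prod]
    rintro ⟨z, hz'⟩
    have hne : ∀ a b : Fin 3, a ≠ b → algebraMap k F (r a) - algebraMap k F (r b) ≠ 0 := by
      intro a b hab h
      exact hab (hr ((algebraMap k F).injective (sub_eq_zero.mp h)))
    obtain ⟨t, ht⟩ : ∃ t, t = (algebraMap k F (r 0) - algebraMap k F (r 1)) *
      (algebraMap k F (r 0) - algebraMap k F (r 2)) *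
      (algebraMap k F (r 1) - algebraMap k F (r 2)) := ⟨_, rfl⟩
    have ht0 : t ≠ 0 := by
      rw [ht]
      exact mul_ne_zero (mul_ne_zero (hne _ _ (by decide)) (hne _ _ (by decide)))
        (hne _ _ (by decide))
    rw [← ht] at hz'
    apply hd
    refine ⟨z / t, ?_⟩
    rw [div_mul_div_comm, eq_div_iff (mul_ne_zero ht0 ht0), ← hz', pow_two]

/-- The condition at a nonsplit real place. -/
theorem goodY_inr [NumberField K] (hS : Setting k K D d s) (hdeg : finrank K D = 3 ^ 2)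
    (B : Basis (Fin N) k D) (φ : k →+* ℝ) (hφ : φ d < 0) :
    ∃ (x : Fin N → k) (δ : ℝ), 0 < δ ∧ ∀ β : D, (∀ j, plAbv (.inr φ) (B.repr β j - x j) < δ) →
      GoodY (d : k) (.inr φ) (β * star β) := by
  obtain ⟨x, δ, hδ, h⟩ := good_inr hS (by norm_num) hdeg B (star_one D) (star_one D) one_ne_zero
    one_ne_zero φ hφ
  refine ⟨x, δ, hδ, fun β hβ => ?_⟩
  have h1 := h β hβ
  rw [inv_one, one_mul, mul_one] at h1
  refine ⟨h1.1, fun m hm hmn hm0 => ?_⟩
  obtain ⟨ρ, hρ, hm'⟩ := h1.2 m hm hmn hm0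
  have h2 : 0 < φ (cd m) := by
    rw [← cd_map, hm', cd_prod]
    have hne : ∀ a b : Fin 3, a ≠ b → ρ a - ρ b ≠ 0 := fun a b hab h3 =>
      hab (hρ (sub_eq_zero.mp h3))
    exact (sq_nonneg _).lt_of_ne (pow_ne_zero 2 (mul_ne_zero (mul_ne_zero
      (hne _ _ (by decide)) (hne _ _ (by decide))) (hne _ _ (by decide)))).symm
  refine ⟨fun h0 => by rw [h0, map_zero] at h2; exact lt_irrefl _ h2, fun u hu hup => ?_⟩
  have h3 : 0 < φ u := hup
  rw [hu, map_mul] at h3
  exact absurd h3 (not_lt.mpr (mul_nonpos_of_nonpos_of_nonneg hφ.le h2.le))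

end

end Vale.Agent.P011.Six.H586
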