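import Vale.Agent.P011.Six.H586.Cen
import Vale.Agent.P011.One.AbX
import Vale.Agent.P011.One.SplitLT
import Vale.Agent.P011.Two.Cv
import Vale.Agent.P011.Two.Ssa

/-!
Degree six (helper586): at a place where the quaternion algebra is ramified and the algebra of
degree six is not a division algebra, the centralizer is split.
-/

open Module NumberField IsDedekindDomain TensorProduct

set_option linter.unusedSectionVars false

namespace Vale.Agent.P011.Six.H586

open Vale.Agent.P011.Arith Vale.Agent.P011.Even Vale.Agent.P011.One Vale.Agent.P011.MPQ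
open Vale.Agent.P011.Six.H359 (Fr)
open Vale.Agent.P011.Two (plAbv_norm plAbv_le)

section fin

variable {E A : Type} [Field E] [Ring A] [Algebra E A] [FiniteDimensional E A]

/-- A division algebra acting on a left ideal. -/
theorem dvd_fin {R : Type} [Ring R] [Nontrivial R] [Algebra E R]
    (h : ∀ x : R, x ≠ 0 → IsUnit x) (g : R →ₐ[E] A) (V : Submodule A A) :
    finrank E R ∣ finrank E V := by
  let _ : DivisionRing R := DivisionRing.ofIsUnitOrEqZero
    (fun a => (eq_or_ne a 0).elim Or.inr (fun ha => Or.inl (h a ha)))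
  let _ : Module R V := Module.compHom V g.toRingHom
  have : IsScalarTower E R V := ⟨fun a b c => by
    change g (a • b) • c = a • (g b • c)
    rw [map_smul, smul_assoc]⟩
  exact Dvd.intro _ (Module.finrank_mul_finrank E R V)

theorem unit_of_left (E : Type) {A : Type} [Field E] [Ring A] [Algebra E A]
    [FiniteDimensional E A] {x : A} (h : (1 : A) ∈ Submodule.span A {x}) : IsUnit x := by
  obtain ⟨y, hy⟩ := Submodule.mem_span_singleton.mp h
  have : IsArtinianRing A := IsArtinianRing.of_finite E A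
  exact IsUnit.of_mul_eq_one_right y hy

/-- Two division subalgebras of coprime dimensions. -/
theorem unit_of_two {R₁ R₂ : Type} [Ring R₁] [Nontrivial R₁] [Algebra E R₁] [Ring R₂]
    [Nontrivial R₂] [Algebra E R₂] (h₁ : ∀ x : R₁, x ≠ 0 → IsUnit x)
    (h₂ : ∀ x : R₂, x ≠ 0 → IsUnit x) (g₁ : R₁ →ₐ[E] A) (g₂ : R₂ →ₐ[E] A)
    (d₁ : finrank E R₁ = 9) (d₂ : finrank E R₂ = 4) (dA : finrank E A = 36) {x : A}
    (hx : x ≠ 0) : IsUnit x := by
  have e1 := dvd_fin h₁ g₁ (Submodule.span A {x})
  have e2 := dvd_fin h₂ g₂ (Submodule.span A {x})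
  rw [d₁] at e1
  rw [d₂] at e2
  have e3 : finrank E (Submodule.span A {x} : Submodule A A) ≤ 36 := by
    rw [← dA]
    exact Submodule.finrank_le ((Submodule.span A {x}).restrictScalars E)
  have e4 : 0 < finrank E (Submodule.span A {x} : Submodule A A) := by
    have : Nontrivial (Submodule.span A {x} : Submodule A A) :=
      ⟨⟨⟨x, Submodule.mem_span_singleton_self x⟩, 0, fun h0 => hx (congrArg Subtype.val h0)⟩⟩
    have : FiniteDimensional E (Submodule.span A {x} : Submodule A A) :=
      inferInstanceAs (FiniteDimensional E ((Submodule.span A {x}).restrictScalars E))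
    exact Module.finrank_pos
  have e5 : finrank E (Submodule.span A {x} : Submodule A A) = 36 := by omega
  have e6 : (Submodule.span A {x}).restrictScalars E = ⊤ := by
    apply Submodule.eq_top_of_finrank_eq
    rw [dA]
    exact e5
  refine unit_of_left E ?_
  have : (1 : A) ∈ (Submodule.span A {x}).restrictScalars E := by rw [e6]; trivial
  exact this

end fin

section loc

variable {k : Type} [Field k] [NumberField k]

theorem ext_le (v : HeightOneSpectrum (𝓞 k))
    (F G : v.adicCompletion k × v.adicCompletion k × v.adicCompletion k × v.adicCompletion k →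
      v.adicCompletion k) (hF : Continuous F) (hG : Continuous G)
    (h : ∀ x y z t : k, ‖F (algebraMap k _ x, algebraMap k _ y, algebraMap k _ z,
      algebraMap k _ t)‖ ≤ ‖G (algebraMap k _ x, algebraMap k _ y, algebraMap k _ z,
      algebraMap k _ t)‖) (q) : ‖F q‖ ≤ ‖G q‖ := by
  have hd : DenseRange (algebraMap k (v.adicCompletion k)) :=
    HeightOneSpectrum.denseRange_algebraMap k v
  have hd4 := hd.prodMap (hd.prodMap (hd.prodMap hd))
  refine hd4.induction_on q (isClosed_le hF.norm hG.norm) ?_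
  rintro ⟨x, y, z, t⟩
  exact h x y z t

/-- The norm form of a quaternion algebra which is ramified is anisotropic over the completion. -/
theorem aniso_loc (v : HeightOneSpectrum (𝓞 k)) {al be : kˣ}
    (h : be ∉ NF al ⊔ LS (v.valuation k)) {x y z t : v.adicCompletion k}
    (h0 : x ^ 2 - algebraMap k _ (al : k) * y ^ 2 - algebraMap k _ (be : k) * z ^ 2 +
      algebraMap k _ (al : k) * algebraMap k _ (be : k) * t ^ 2 = 0) :
    x = 0 ∧ y = 0 ∧ z = 0 ∧ t = 0 := by
  obtain ⟨a, ha⟩ : ∃ a, a = algebraMap k (v.adicCompletion k) (al : k) := ⟨_, rfl⟩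
  obtain ⟨b, hb⟩ : ∃ b, b = algebraMap k (v.adicCompletion k) (be : k) := ⟨_, rfl⟩
  have ha0 : a ≠ 0 := by rw [ha]; exact (_root_.map_ne_zero _).mpr al.ne_zero
  have hb0 : b ≠ 0 := by rw [hb]; exact (_root_.map_ne_zero _).mpr be.ne_zero
  have h16 : algebraMap k (v.adicCompletion k) 16 ≠ 0 :=
    (_root_.map_ne_zero _).mpr (by norm_num)
  rw [← ha, ← hb] at h0
  have key : ∀ (F : v.adicCompletion k × v.adicCompletion k × v.adicCompletion k ×
      v.adicCompletion k → v.adicCompletion k), Continuous F →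
      (∀ x y z t : k, ‖F (algebraMap k _ x, algebraMap k _ y, algebraMap k _ z,
      algebraMap k _ t)‖ ≤ ‖algebraMap k (v.adicCompletion k)
        (x ^ 2 - al * y ^ 2 - be * z ^ 2 + al * be * t ^ 2)‖) → F (x, y, z, t) = 0 := by
    intro F hF hle
    have h1 := ext_le v F (fun q => q.1 ^ 2 - a * q.2.1 ^ 2 - b * q.2.2.1 ^ 2 +
      a * b * q.2.2.2 ^ 2) hF (by fun_prop) (fun x y z t => by
        refine (hle x y z t).trans_eq ?_
        rw [ha, hb]
        simp only [map_add, map_sub, map_mul, map_pow]) (x, y, z, t)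
    rw [h0, norm_zero] at h1
    exact norm_le_zero_iff.mp h1
  have hc : ∀ (x y z t : k), let q : Qt al be := ⟨x, y, z, t⟩
      nrd q = x ^ 2 - al * y ^ 2 - be * z ^ 2 + al * be * t ^ 2 := fun x y z t => by
    simp only [nrd]
  have hle : ∀ {p q : k}, v.valuation k 16 * v.valuation k p ≤ v.valuation k q →
      ‖algebraMap k (v.adicCompletion k) (16 * p)‖ ≤ ‖algebraMap k (v.adicCompletion k) q‖ := by
    intro p q hpq
    rw [← plAbv_norm, ← plAbv_norm, plAbv_le, map_mul]
    exact hpq
  have r1 := key (fun q => algebraMap k _ 16 * q.1 ^ 2) (by fun_prop) (fun x y z t => by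
    have := hle (ram_coord h (⟨x, y, z, t⟩ : Qt al be)).1
    rwa [hc, map_mul, map_pow] at this)
  have r2 := key (fun q => algebraMap k _ 16 * (a * q.2.1 ^ 2)) (by fun_prop) (fun x y z t => by
    have := hle (ram_coord h (⟨x, y, z, t⟩ : Qt al be)).2.1
    rw [hc, map_mul, map_mul _ (al : k), map_pow] at this
    rw [ha]
    exact this)
  have r3 := key (fun q => algebraMap k _ 16 * (b * q.2.2.1 ^ 2)) (by fun_prop)
    (fun x y z t => by
    have := hle (ram_coord h (⟨x, y, z, t⟩ : Qt al be)).2.2.1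
    rw [hc, map_mul, map_mul _ (be : k), map_pow] at this
    rw [hb]
    exact this)
  have r4 := key (fun q => algebraMap k _ 16 * (a * b * q.2.2.2 ^ 2)) (by fun_prop)
    (fun x y z t => by
    have := hle (ram_coord h (⟨x, y, z, t⟩ : Qt al be)).2.2.2
    rw [hc, map_mul, map_mul _ (al * be : k), map_mul _ (al : k), map_pow] at this
    rw [ha, hb]
    exact this)
  refine ⟨?_, ?_, ?_, ?_⟩
  · simpa [h16] using r1
  · simpa [h16, ha0] using r2
  · simpa [h16, hb0] using r3
  · simpa [h16, ha0, hb0] using r4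

/-- A quaternion algebra with anisotropic norm form is a division algebra. -/
theorem quat_unit {E : Type} [Field E] (a b : E)
    (h : ∀ x y z t : E, x ^ 2 - a * y ^ 2 - b * z ^ 2 + a * b * t ^ 2 = 0 →
      x = 0 ∧ y = 0 ∧ z = 0 ∧ t = 0) (q : QuaternionAlgebra E a 0 b) (hq : q ≠ 0) : IsUnit q := by
  obtain ⟨n, hn⟩ : ∃ n, n = q.re ^ 2 - a * q.imI ^ 2 - b * q.imJ ^ 2 + a * b * q.imK ^ 2 :=
    ⟨_, rfl⟩
  have hn0 : n ≠ 0 := by
    intro h0
    obtain ⟨h1, h2, h3, h4⟩ := h _ _ _ _ (hn.symm.trans h0)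
    exact hq (by ext <;> simp [h1, h2, h3, h4])
  have e1 : q * star q = algebraMap E _ n := by
    ext
    · simp; rw [hn]; ring
    · simp; ring
    · simp; ring
    · simp; ring
  have e2 : star q * q = algebraMap E _ n := by
    ext
    · simp; rw [hn]; ring
    · simp; ring
    · simp; ring
    · simp; ring
  have e3 : algebraMap E (QuaternionAlgebra E a 0 b) n * algebraMap E _ n⁻¹ = 1 := by
    rw [← map_mul, mul_inv_cancel₀ hn0, map_one]
  refine ⟨⟨q, star q * algebraMap E _ n⁻¹, by rw [← mul_assoc, e1, e3], ?_⟩, rfl⟩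
  rw [← Algebra.commutes, mul_assoc, e2, Algebra.commutes, e3]

variable {K D : Type} [Field K] [NumberField K] [StarRing K] [DivisionRing D] [StarRing D]
    [Algebra k K] [Algebra k D] [Algebra K D] [IsScalarTower k K D]
    {d : kˣ} {s : K} {al be : kˣ} {i j : D}

/-- The quaternion algebra inside the base change. -/
theorem exists_quat (hF : Fr k al be i j) {E : Type} [Field E] [Algebra K E] [Algebra k E]
    [IsScalarTower k K E] :
    Nonempty (QuaternionAlgebra E (algebraMap k E al) 0 (algebraMap k E be) →ₐ[E] E ⊗[K] D) := by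
  have key : ∀ (c : k) (x : D), x * x = algebraMap k D c →
      ((1 : E) ⊗ₜ[K] x) * ((1 : E) ⊗ₜ[K] x) = (algebraMap k E c) • (1 : E ⊗[K] D) := by
    intro c x hx
    obtain ⟨c', hc'⟩ : ∃ c', c' = algebraMap k K c := ⟨_, rfl⟩
    rw [Algebra.TensorProduct.tmul_mul_tmul, one_mul, hx, IsScalarTower.algebraMap_apply k K D,
      IsScalarTower.algebraMap_apply k K E, ← hc', Algebra.algebraMap_eq_smul_one (A := D),
      TensorProduct.tmul_smul, TensorProduct.smul_tmul', Algebra.smul_def, mul_one,
      Algebra.TensorProduct.one_def, TensorProduct.smul_tmul', smul_eq_mul, mul_one]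
  refine ⟨QuaternionAlgebra.lift ⟨1 ⊗ₜ i, 1 ⊗ₜ j, 1 ⊗ₜ (i * j), ?_, ?_, ?_, ?_⟩⟩
  · rw [zero_smul, add_zero]
    exact key _ _ hF.ii
  · exact key _ _ hF.jj
  · rw [Algebra.TensorProduct.tmul_mul_tmul, one_mul]
  · rw [Algebra.TensorProduct.tmul_mul_tmul, one_mul, zero_smul, zero_sub, hF.ij,
      TensorProduct.tmul_neg, neg_neg]

/-- **The centralizer is split.** -/
theorem tdiv_cc (hS : Setting k K D d s) (hdeg : finrank K D = 6 ^ 2) (hF : Fr k al be i j)
    (v : HeightOneSpectrum (𝓞 k)) (hbe : be ∉ NF al ⊔ LS (v.valuation k))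
    (hT : (Sum.inl v : Pl k) ∉ Tdiv k K D) : (Sum.inl v : Pl k) ∉ Tdiv k K (CC K i j) := by
  rintro ⟨v', hv', φ, h⟩
  obtain rfl : v = v' := Sum.inl_injective hv'
  refine hT ⟨v, rfl, φ, ?_⟩
  have := hS.fin
  have := hS.cen
  let _ : Algebra K (v.adicCompletion k) := (φ : K →+* v.adicCompletion k).toAlgebra
  have : IsScalarTower k K (v.adicCompletion k) :=
    IsScalarTower.of_algebraMap_eq fun c => (φ.commutes c).symm
  obtain ⟨g⟩ := exists_quat (D := D) hF (E := v.adicCompletion k) (K := K)
  intro x hx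
  refine unit_of_two (E := v.adicCompletion k) h
    (quat_unit _ _ fun x y z t h0 => aniso_loc v hbe h0)
    (Algebra.TensorProduct.map (AlgHom.id _ _) (vv K)) g ?_
    (QuaternionAlgebra.finrank_eq_four _ _ _) ?_ hx
  · rw [Module.finrank_baseChange]
    exact finrank_CC9 hS hF hdeg
  · rw [Module.finrank_baseChange, hdeg]
    norm_num

end loc

end Vale.Agent.P011.Six.H586
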