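import Vale.Agent.P011.Six.H586.NuEx
import Vale.Agent.P011.Six.H586.TdC
import Vale.Agent.P011.Six.H359.Spl3

/-!
Degree six (helper586): the element which repairs the class of the discriminant of the cubic
field.
-/

open Module NumberField IsDedekindDomain

set_option linter.unusedSectionVars false

namespace Vale.Agent.P011.Six.H586

open Vale.Agent.P011.Arith Vale.Agent.P011.Even Vale.Agent.P011.One Vale.Agent.P011.Two
open Vale.Agent.P011.Six.H359 (Fr th)

variable {k K D : Type} [Field k] [NumberField k] [Field K] [NumberField K] [StarRing K]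
    [DivisionRing D] [StarRing D] [Algebra k K] [Algebra k D] [Algebra K D] [IsScalarTower k K D]
    {d : kˣ} {s : K} {al be : kˣ} {i j : D}

/-- The splitting conditions. -/
theorem spl_all (hS : Setting k K D d s) (hdeg : finrank K D = 6 ^ 2) (hF : Fr k al be i j)
    (hT : ∀ v : HeightOneSpectrum (𝓞 k), be ∉ NF al ⊔ LS (v.valuation k) →
      (Sum.inl v : Pl k) ∉ One.Tdiv k K D) (p : Pl k) (hp : p ∈ bad al be) :
    SplP k K (CC K i j) d p := by
  let _ := starCC K hF.si hF.sj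
  have hSC := setting_CC hS hF
  have hdC := finrank_CC9 hS hF hdeg
  rcases p with v | τ
  · intro hv
    exact H359.exists_splAt3 hSC hdC v hv (tdiv_cc hS hdeg hF v hp (hT v hp))
  · intro hτ
    exact H359.exists_spl_real3 hSC hdC τ hτ

/-- **The element which repairs the class of the discriminant.** -/
theorem exists_nu {M : ℕ} {Ω : Type} [Field Ω] [Algebra K Ω] (hS : Setting k K D d s)
    (hdeg : finrank K D = 6 ^ 2) (hF : Fr k al be i j)
    (hT : ∀ v : HeightOneSpectrum (𝓞 k), be ∉ NF al ⊔ LS (v.valuation k) →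
      (Sum.inl v : Pl k) ∉ One.Tdiv k K D)
    (f : D →ₐ[K] Matrix (Fin 6) (Fin 6) Ω) (B : Basis (Fin M) k D)
    {S : Set (HeightOneSpectrum (𝓞 k))} (hSf : S.Finite)
    (η : HeightOneSpectrum (𝓞 k) → ℝ) (hη : ∀ v, 0 < η v) {e : ℕ} (he : e ≠ 0) :
    ∃ κ : D, κ * star κ = 1 ∧ (f κ).det = 1 ∧ κ * i = i * κ ∧ κ * j = j * κ ∧
      (∀ v ∈ S, nm B (.inl v) (κ ^ e - 1) < η v) ∧
      ∃ η' : Pl k → ℝ, (∀ p, 0 < η' p) ∧ ∀ x : D,
        (∀ p ∈ bad al be, nm B p (x - 1) < η' p) →
        ∀ (L : Type) [Field L] [Algebra k L] (ι : L →ₐ[k] D) (c : L), finrank k L = 3 →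
          ι c = 2 + th j (x * κ ^ e) + (th j (x * κ ^ e))⁻¹ →
          ∃ e1 e2 e3 : k, al * e1 ^ 2 + be * e2 ^ 2 - al * be * e3 ^ 2 =
            d * Algebra.discr k (fun a : Fin 3 => c ^ (a : ℕ)) :=
  exists_nu' B f hS hdeg hF (spl_all hS hdeg hF hT) hSf η hη he

end Vale.Agent.P011.Six.H586
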