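import Vale.Agent.P011.Six.H359.Frame

/-!
Degree six (helper586): the centralizer of a quaternion algebra stable under the involution, as a
division algebra with involution of the second kind.
-/

open Module NumberField

set_option linter.unusedSectionVars false

namespace Vale.Agent.P011.Six.H586

open Vale.Agent.P011.Arith Vale.Agent.P011.Even
open Vale.Agent.P011.Six.H359 (Fr)

section types

variable (K : Type) {D : Type} [Field K] [DivisionRing D] [Algebra K D] (i j : D)

/-- The elements commuting with `i` and `j`. -/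
def CC : Type := Subalgebra.centralizer K ({i, j} : Set D)

instance ringCC : Ring (CC K i j) :=
  inferInstanceAs (Ring (Subalgebra.centralizer K ({i, j} : Set D)))

noncomputable instance divCC : DivisionRing (CC K i j) :=
  { ringCC K i j with
    inv := fun x => ⟨(x.1 : D)⁻¹, by
      rw [Subalgebra.mem_centralizer_iff]
      intro y hy
      have h := (Subalgebra.mem_centralizer_iff K).mp x.2 y hy
      exact (Commute.inv_right₀ (show Commute y (x.1 : D) from h))⟩
    exists_pair_ne := ⟨0, 1, fun h => zero_ne_one (α := D) (congrArg Subtype.val h)⟩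
    mul_inv_cancel := fun x hx => by
      apply Subtype.ext
      exact mul_inv_cancel₀ (fun h => hx (Subtype.ext h))
    inv_zero := Subtype.ext inv_zero
    nnqsmul := _
    nnqsmul_def := fun _ _ => rfl
    qsmul := _
    qsmul_def := fun _ _ => rfl }

instance algCC : Algebra K (CC K i j) :=
  inferInstanceAs (Algebra K (Subalgebra.centralizer K ({i, j} : Set D)))

variable {i j}

/-- The inclusion. -/
def vv : CC K i j →ₐ[K] D := Subalgebra.val (Subalgebra.centralizer K ({i, j} : Set D))

theorem vv_inj : Function.Injective (vv K (i := i) (j := j)) := Subtype.val_injective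

theorem mem_CC {x : D} : x ∈ Subalgebra.centralizer K ({i, j} : Set D) ↔
    x * i = i * x ∧ x * j = j * x := by
  rw [Subalgebra.mem_centralizer_iff]
  constructor
  · intro h
    exact ⟨(h i (Or.inl rfl)).symm, (h j (Or.inr rfl)).symm⟩
  · rintro ⟨h1, h2⟩ y (rfl | rfl)
    · exact h1.symm
    · exact h2.symm

theorem vv_i (x : CC K i j) : vv K x * i = i * vv K x := ((mem_CC K).mp x.2).1

theorem vv_j (x : CC K i j) : vv K x * j = j * vv K x := ((mem_CC K).mp x.2).2

theorem exists_vv {x : D} (hi : x * i = i * x) (hj : x * j = j * x) :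
    ∃ y : CC K i j, vv K y = x := ⟨⟨x, (mem_CC K).mpr ⟨hi, hj⟩⟩, rfl⟩

end types

section two

variable {k K D : Type} [Field k] [Field K] [DivisionRing D] [Algebra k K] [Algebra k D]
    [Algebra K D] [IsScalarTower k K D] {i j : D}

noncomputable instance (priority := 50) algkCC : Algebra k (CC K i j) :=
  inferInstanceAs (Algebra k (Subalgebra.centralizer K ({i, j} : Set D)))

instance towCC : IsScalarTower k K (CC K i j) :=
  inferInstanceAs (IsScalarTower k K (Subalgebra.centralizer K ({i, j} : Set D)))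

/-- The inclusion over the small field. -/
noncomputable def vk (k : Type) {K D : Type} [Field k] [Field K] [DivisionRing D] [Algebra k K]
    [Algebra k D] [Algebra K D] [IsScalarTower k K D] {i j : D} : CC K i j →ₐ[k] D :=
  (vv K (i := i) (j := j)).restrictScalars k

theorem vv_k (c : k) : vv K (algebraMap k (CC K i j) c) = algebraMap k D c :=
  (vk k (i := i) (j := j)).commutes c

theorem vk_apply (x : CC K i j) : vk k x = vv K x := rfl

/-- The involution of the centralizer. -/
@[reducible] def starCC (K : Type) {D : Type} [Field K] [DivisionRing D] [StarRing D]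
    [Algebra K D] {i j : D} (hi : star i = -i) (hj : star j = -j) : StarRing (CC K i j) where
  star x := ⟨star (x.1 : D), (mem_CC K).mpr ⟨by
      have h2 := congrArg star (vv_i K x)
      rw [star_mul, star_mul, hi, neg_mul, mul_neg, neg_inj] at h2
      exact h2.symm, by
      have h2 := congrArg star (vv_j K x)
      rw [star_mul, star_mul, hj, neg_mul, mul_neg, neg_inj] at h2
      exact h2.symm⟩⟩
  star_involutive x := vv_inj K (star_star (x.1 : D))
  star_mul x y := vv_inj K (star_mul (x.1 : D) y.1)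
  star_add x y := vv_inj K (star_add (x.1 : D) y.1)

end two

section dim

variable {k K D : Type} [Field k] [NumberField k] [Field K] [StarRing K]
    [DivisionRing D] [StarRing D] [Algebra k K] [Algebra k D] [Algebra K D] [IsScalarTower k K D]
    {d : kˣ} {s : K} {al be : kˣ} {i j : D}

/-- Splitting with respect to an element with central square. -/
theorem split_sq {t x : D} (ht : t ≠ 0) (h2 : (2 : D) ≠ 0) (h2c : ∀ y : D, (2 : D)⁻¹ * y = y * 2⁻¹)
    (htt : ∀ y : D, (t * t) * y = y * (t * t)) :
    ∃ a b : D, x = a + b ∧ a * t = t * a ∧ b * t = -(t * b) ∧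
      (∀ y : D, x * y = y * x → t * y = y * t → a * y = y * a ∧ b * y = y * b) ∧
      (∀ y : D, x * y = y * x → t * y = -(y * t) → a * y = y * a ∧ b * y = y * b) := by
  have e1 : t * (t * x * t⁻¹) = x * t := by
    apply mul_right_cancel₀ ht
    calc t * (t * x * t⁻¹) * t = (t * t) * x * (t⁻¹ * t) := by simp only [mul_assoc]
      _ = x * t * t := by rw [inv_mul_cancel₀ ht, mul_one, htt, mul_assoc]
  have e2 : (t * x * t⁻¹) * t = t * x := by rw [mul_assoc, inv_mul_cancel₀ ht, mul_one]
  have e3 : ∀ y : D, x * y = y * x → t * y = y * t → (t * x * t⁻¹) * y = y * (t * x * t⁻¹) := by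
    intro y h1 h3
    have c1 : Commute x y := h1
    have c2 : Commute t y := h3
    exact ((c2.mul_left c1).mul_left (Commute.inv_left₀ c2))
  have e4 : ∀ y : D, x * y = y * x → t * y = -(y * t) →
      (t * x * t⁻¹) * y = y * (t * x * t⁻¹) := by
    intro y h1 h3
    have h4 : t⁻¹ * y = -(y * t⁻¹) := by
      apply mul_left_cancel₀ ht
      apply mul_right_cancel₀ ht
      calc t * (t⁻¹ * y) * t = (t * t⁻¹) * y * t := by simp only [mul_assoc]
        _ = y * t := by rw [mul_inv_cancel₀ ht, one_mul]
        _ = -(t * y) := by rw [h3, neg_neg]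
        _ = t * -(y * t⁻¹) * t := by
          rw [mul_neg, neg_mul]
          congr 1
          rw [mul_assoc, mul_assoc, inv_mul_cancel₀ ht, mul_one]
    calc (t * x * t⁻¹) * y = t * x * (t⁻¹ * y) := by rw [mul_assoc]
      _ = -(t * (x * y) * t⁻¹) := by rw [h4, mul_neg]; simp only [mul_assoc]
      _ = -((t * y) * x * t⁻¹) := by rw [h1]; simp only [mul_assoc]
      _ = y * (t * x * t⁻¹) := by rw [h3, neg_mul, neg_mul, neg_neg]; simp only [mul_assoc]
  refine ⟨2⁻¹ * (x + t * x * t⁻¹), 2⁻¹ * (x - t * x * t⁻¹), ?_, ?_, ?_, ?_, ?_⟩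
  · rw [← mul_add]
    have : x + t * x * t⁻¹ + (x - t * x * t⁻¹) = 2 * x := by rw [two_mul]; abel
    rw [this, ← mul_assoc, inv_mul_cancel₀ h2, one_mul]
  · have e5 : t * (x + t * x * t⁻¹) = t * x + x * t := by rw [mul_add, e1]
    rw [mul_assoc, add_mul, e2, ← mul_assoc t, ← h2c, mul_assoc, e5, add_comm]
  · have e5 : t * (x - t * x * t⁻¹) = t * x - x * t := by rw [mul_sub, e1]
    rw [mul_assoc, sub_mul, e2, ← mul_assoc t, ← h2c, mul_assoc, e5, ← mul_neg, neg_sub]
  · intro y h1 h3
    have := e3 y h1 h3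
    exact ⟨by rw [mul_assoc, add_mul, this, h1, ← mul_add, ← mul_assoc, h2c, mul_assoc],
      by rw [mul_assoc, sub_mul, this, h1, ← mul_sub, ← mul_assoc, h2c, mul_assoc]⟩
  · intro y h1 h3
    have := e4 y h1 h3
    exact ⟨by rw [mul_assoc, add_mul, this, h1, ← mul_add, ← mul_assoc, h2c, mul_assoc],
      by rw [mul_assoc, sub_mul, this, h1, ← mul_sub, ← mul_assoc, h2c, mul_assoc]⟩

theorem two_ne_D (k : Type) [Field k] [NumberField k] [Algebra k D] : (2 : D) ≠ 0 := by
  have h : (algebraMap k D) 2 ≠ 0 := (_root_.map_ne_zero _).mpr two_ne_zero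
  rwa [map_ofNat] at h

theorem two_inv_comm (k : Type) [Field k] [NumberField k] [Algebra k D] (y : D) :
    (2 : D)⁻¹ * y = y * 2⁻¹ := by
  have h : (2 : D)⁻¹ = algebraMap k D (2 : k)⁻¹ := by rw [map_inv₀, map_ofNat]
  rw [h]
  exact Algebra.commutes _ _

/-- Decomposition with respect to the quaternion algebra. -/
theorem exists_dec (hF : Fr k al be i j) (x : D) :
    ∃ c₀ c₁ c₂ c₃ : CC K i j, x = vv K c₀ + vv K c₁ * i + vv K c₂ * j + vv K c₃ * (i * j) := by
  have h2 := two_ne_D (D := D) k
  have h2c := two_inv_comm (D := D) k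
  have hi := hF.i_ne
  have hj := hF.j_ne
  have hii : ∀ y : D, (i * i) * y = y * (i * i) := fun y => by
    rw [hF.ii]; exact Algebra.commutes _ _
  have hjj : ∀ y : D, (j * j) * y = y * (j * j) := fun y => by
    rw [hF.jj]; exact Algebra.commutes _ _
  have key : ∀ z : D, z * i = i * z → ∃ c c' : CC K i j, z = vv K c + vv K c' * i := by
    intro z hz
    obtain ⟨a, b, hab, ha, hb, h1, h3⟩ := split_sq (x := z) hj h2 h2c hjj
    obtain ⟨hai, hbi⟩ := h3 i hz (by rw [hF.ij, neg_neg])
    obtain ⟨c, hc⟩ := exists_vv K hai ha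
    have f1 : b * i⁻¹ * i = i * (b * i⁻¹) := by
      rw [mul_assoc, inv_mul_cancel₀ hi, mul_one, ← mul_assoc, ← hbi, mul_assoc,
        mul_inv_cancel₀ hi, mul_one]
    have f2 : b * i⁻¹ * j = j * (b * i⁻¹) := by
      apply mul_right_cancel₀ hi
      have e1 : i⁻¹ * j = -(j * i⁻¹) := by
        apply mul_left_cancel₀ hi
        apply mul_right_cancel₀ hi
        calc i * (i⁻¹ * j) * i = (i * i⁻¹) * (j * i) := by simp only [mul_assoc]
          _ = j * i := by rw [mul_inv_cancel₀ hi, one_mul]
          _ = i * -(j * i⁻¹) * i := by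
            rw [mul_neg, neg_mul, mul_assoc, mul_assoc, inv_mul_cancel₀ hi, mul_one, hF.ij,
              neg_neg]
      calc b * i⁻¹ * j * i = b * (i⁻¹ * j) * i := by simp only [mul_assoc]
        _ = -((b * j) * (i⁻¹ * i)) := by rw [e1, mul_neg, neg_mul]; simp only [mul_assoc]
        _ = j * b * (i⁻¹ * i) := by rw [hb, neg_mul, neg_neg]
        _ = j * (b * i⁻¹) * i := by simp only [mul_assoc]
    obtain ⟨c', hc'⟩ := exists_vv K f1 f2
    exact ⟨c, c', by rw [hab, hc, hc', mul_assoc, inv_mul_cancel₀ hi, mul_one]⟩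
  obtain ⟨a, b, hab, ha, hb, -, -⟩ := split_sq (x := x) hi h2 h2c hii
  obtain ⟨c₀, c₁, h0⟩ := key a ha
  have f3 : b * j⁻¹ * i = i * (b * j⁻¹) := by
    apply mul_right_cancel₀ hj
    have e1 : j⁻¹ * i = -(i * j⁻¹) := by
      apply mul_left_cancel₀ hj
      apply mul_right_cancel₀ hj
      calc j * (j⁻¹ * i) * j = (j * j⁻¹) * (i * j) := by simp only [mul_assoc]
        _ = i * j := by rw [mul_inv_cancel₀ hj, one_mul]
        _ = j * -(i * j⁻¹) * j := by
          rw [mul_neg, neg_mul, mul_assoc, mul_assoc, inv_mul_cancel₀ hj, mul_one, hF.ij]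
    calc b * j⁻¹ * i * j = b * (j⁻¹ * i) * j := by simp only [mul_assoc]
      _ = -((b * i) * (j⁻¹ * j)) := by rw [e1, mul_neg, neg_mul]; simp only [mul_assoc]
      _ = i * b * (j⁻¹ * j) := by rw [hb, neg_mul, neg_neg]
      _ = i * (b * j⁻¹) * j := by simp only [mul_assoc]
  obtain ⟨c₂, c₃, h3⟩ := key (b * j⁻¹) f3
  refine ⟨c₀, c₁, c₂, c₃, ?_⟩
  have h4 : b = (b * j⁻¹) * j := by rw [mul_assoc, inv_mul_cancel₀ hj, mul_one]
  rw [hab, h0, h4, h3, add_mul, ← mul_assoc, add_assoc, add_assoc, mul_assoc (vv K c₃)]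
  simp only [add_assoc]

/-- Uniqueness of the decomposition. -/
theorem dec_unique (hF : Fr k al be i j) {c₀ c₁ c₂ c₃ : CC K i j}
    (h : vv K c₀ + vv K c₁ * i + vv K c₂ * j + vv K c₃ * (i * j) = 0) :
    c₀ = 0 ∧ c₁ = 0 ∧ c₂ = 0 ∧ c₃ = 0 := by
  have h2 := two_ne_D (D := D) k
  have hi := hF.i_ne
  have hj := hF.j_ne
  -- conjugation by `i`
  have key : ∀ a b : D, a * i = i * a → b * i = -(i * b) → a + b = 0 → a = 0 ∧ b = 0 := by
    intro a b ha hb hab
    have h1 : i * (a - b) = 0 := by
      have h3 : (a + b) * i = 0 := by rw [hab, zero_mul]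
      rw [add_mul, ha, hb, ← sub_eq_add_neg, ← mul_sub] at h3
      exact h3
    have h3 : a - b = 0 := (mul_eq_zero.mp h1).resolve_left hi
    have h4 : a = b := sub_eq_zero.mp h3
    have h5 : (2 : D) * b = 0 := by rw [two_mul, ← hab, h4]
    have h6 := (mul_eq_zero.mp h5).resolve_left h2
    exact ⟨by rw [h4, h6], h6⟩
  have key2 : ∀ c c' : CC K i j, vv K c + vv K c' * i = 0 → c = 0 ∧ c' = 0 := by
    intro c c' hc
    have h3 : j * (vv K c - vv K c' * i) = 0 := by
      have h4 : (vv K c + vv K c' * i) * j = 0 := by rw [hc, zero_mul]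
      rw [add_mul, mul_assoc, hF.ij, mul_neg, ← mul_assoc, vv_j, vv_j, mul_assoc,
        ← sub_eq_add_neg, ← mul_sub] at h4
      exact h4
    have h4 : vv K c = vv K c' * i := sub_eq_zero.mp ((mul_eq_zero.mp h3).resolve_left hj)
    have h5 : (2 : D) * (vv K c' * i) = 0 := by rw [two_mul, ← hc, h4]
    have h6 := (mul_eq_zero.mp h5).resolve_left h2
    have h7 := (mul_eq_zero.mp h6).resolve_right hi
    refine ⟨vv_inj K ?_, vv_inj K ?_⟩
    · rw [h4, h6, map_zero]
    · rw [h7, map_zero]
  obtain ⟨h3, h4⟩ := key (vv K c₀ + vv K c₁ * i) (vv K c₂ * j + vv K c₃ * (i * j)) (by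
      rw [add_mul, mul_add, ← mul_assoc i, ← vv_i]
      simp only [← vv_i]) (by
      have e1 : j * i = -(i * j) := hF.ji
      calc (vv K c₂ * j + vv K c₃ * (i * j)) * i =
          vv K c₂ * (j * i) + vv K c₃ * i * (j * i) := by
            rw [add_mul]; simp only [mul_assoc]
        _ = -(vv K c₂ * i * j + vv K c₃ * i * (i * j)) := by
            rw [e1]; simp only [mul_neg, mul_assoc, neg_add]
        _ = -(i * (vv K c₂ * j + vv K c₃ * (i * j))) := by
            rw [vv_i, vv_i, mul_add]; simp only [mul_assoc]) (by rw [← h]; abel)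
  obtain ⟨h5, h6⟩ := key2 _ _ h3
  obtain ⟨h7, h8⟩ := key2 c₂ c₃ (by
    have h9 : (vv K c₂ + vv K c₃ * i) * j = 0 := by rw [add_mul, mul_assoc, h4]
    exact (mul_eq_zero.mp h9).resolve_right hj)
  exact ⟨h5, h6, h7, h8⟩

/-- The decomposition as an isomorphism. -/
noncomputable def decE (hF : Fr k al be i j) :
    (CC K i j × CC K i j × CC K i j × CC K i j) ≃ₗ[K] D :=
  LinearEquiv.ofBijective
    { toFun := fun c => vv K c.1 + vv K c.2.1 * i + vv K c.2.2.1 * j + vv K c.2.2.2 * (i * j)
      map_add' := fun x y => by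
        simp only [Prod.fst_add, Prod.snd_add, map_add, add_mul]
        abel
      map_smul' := fun c x => by
        simp only [Prod.smul_fst, Prod.smul_snd, map_smul, smul_mul_assoc, RingHom.id_apply,
          smul_add] }
    ⟨by
      rw [← LinearMap.ker_eq_bot, LinearMap.ker_eq_bot']
      rintro ⟨a, b, c, e⟩ h
      obtain ⟨rfl, rfl, rfl, rfl⟩ := dec_unique (K := K) hF h
      rfl, fun x => by
      obtain ⟨a, b, c, e, h⟩ := exists_dec (K := K) hF x
      exact ⟨(a, b, c, e), h.symm⟩⟩

theorem finrank_CC (hF : Fr k al be i j) [FiniteDimensional K D] :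
    finrank K D = 4 * finrank K (CC K i j) := by
  have hfin : FiniteDimensional K (CC K i j) :=
    inferInstanceAs (FiniteDimensional K (Subalgebra.centralizer K ({i, j} : Set D)))
  rw [← (decE (K := K) hF).finrank_eq]
  simp only [Module.finrank_prod]
  ring

/-- The centralizer is central over the big field. -/
theorem cen_CC (hF : Fr k al be i j) [Algebra.IsCentral K D] :
    Algebra.IsCentral K (CC K i j) := by
  refine ⟨fun z hz => ?_⟩
  rw [Subalgebra.mem_center_iff] at hz
  have h1 : vv K z ∈ Subalgebra.center K D := by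
    rw [Subalgebra.mem_center_iff]
    intro x
    obtain ⟨a, b, c, e, rfl⟩ := exists_dec (K := K) hF x
    have h3 : ∀ y : CC K i j, Commute (vv K y) (vv K z) := fun y => by
      have := congrArg (vv K) (hz y)
      rwa [map_mul, map_mul] at this
    have ci : Commute i (vv K z) := (vv_i K z).symm
    have cj : Commute j (vv K z) := (vv_j K z).symm
    exact ((((h3 a).add_left ((h3 b).mul_left ci)).add_left ((h3 c).mul_left cj)).add_left
      ((h3 e).mul_left (ci.mul_left cj)))
  obtain ⟨c, hc⟩ := Algebra.mem_bot.mp (Algebra.IsCentral.out h1)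
  exact Algebra.mem_bot.mpr ⟨c, vv_inj K (by rw [← hc]; exact (vv K).commutes c)⟩

/-- **The centralizer of the quaternion algebra as a division algebra with involution.** -/
theorem setting_CC (hS : Setting k K D d s) (hF : Fr k al be i j) :
    letI := starCC K hF.si hF.sj
    Setting k K (CC K i j) d s := by
  have := hS.fin
  have := hS.cen
  let i1 := starCC K hF.si hF.sj
  exact
    { sq := hS.sq
      star_s := hS.star_s
      ns := hS.ns
      fix := hS.fix
      rank := hS.rank
      fin := inferInstanceAs (FiniteDimensional K (Subalgebra.centralizer K ({i, j} : Set D)))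
      cen := cen_CC hF
      star_smul := fun x y => by
        apply vv_inj K
        have h1 := hS.star_smul x (vv K y)
        rw [← map_smul] at h1
        exact h1 }

theorem finrank_CC9 (hS : Setting k K D d s) (hF : Fr k al be i j)
    (hdeg : finrank K D = 6 ^ 2) : finrank K (CC K i j) = 3 ^ 2 := by
  have := hS.fin
  have h := finrank_CC (K := K) hF
  omega

end dim

end Vale.Agent.P011.Six.H586
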