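import Vale.Agent.P011.Six.Conj
import Vale.Agent.P011.Two.Cont
import Vale.Agent.P011.Two.Tr

/-!
Degree six (helper586): the discriminant of the powers of an element, as a function on the
division algebra.
-/

open Module Polynomial NumberField IsDedekindDomain Filter Topology

set_option linter.unusedSectionVars false

namespace Vale.Agent.P011.Six.H586

open Vale.Agent.P011.Arith Vale.Agent.P011.Even Vale.Agent.P011.Two

section fld

variable {k E : Type} [Field k] [Field E] [Algebra k E]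

theorem discr_eq_dsc (h3 : finrank k E = 3) (g : E) :
    Algebra.discr k (fun i : Fin 3 => g ^ (i : ℕ)) = dsc k g := by
  have h0 := trace_one_cub h3
  rw [Algebra.discr_def, Matrix.det_fin_three]
  simp only [Algebra.traceMatrix_apply, Algebra.traceForm_apply, Fin.val_zero, Fin.val_one,
    Fin.val_two, pow_zero, pow_one, one_mul, mul_one, h0]
  have e2 : g * g = g ^ 2 := by ring
  have e3 : g * g ^ 2 = g ^ 3 := by ring
  have e3' : g ^ 2 * g = g ^ 3 := by ring
  have e4 : g ^ 2 * g ^ 2 = g ^ 4 := by ring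
  rw [e2, e3, e3', e4, dsc]
  ring

/-- Change of the generator. -/
theorem dsc_change (h3 : finrank k E = 3) {g : E} (hg : ∀ c : k, algebraMap k E c ≠ g) (c : E) :
    ∃ P : k, dsc k c = P ^ 2 * dsc k g := by
  have h1 : ∀ j : Fin 3, ∃ a : Fin 3 → k,
      c ^ (j : ℕ) = ∑ i : Fin 3, g ^ (i : ℕ) * algebraMap k E (a i) := by
    intro j
    obtain ⟨a₀, a₁, a₂, h⟩ := exists_coef h3 hg (c ^ (j : ℕ))
    refine ⟨![a₀, a₁, a₂], ?_⟩
    rw [h, Fin.sum_univ_three]
    simp
    ring
  choose a ha using h1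
  refine ⟨(Matrix.of fun i j => a j i).det, ?_⟩
  rw [← discr_eq_dsc h3, ← discr_eq_dsc h3, ← Algebra.discr_of_matrix_vecMul]
  congr 1
  funext j
  rw [ha j]
  rfl

theorem dsc_ne [CharZero k] (h3 : finrank k E = 3) {g : E} (hg : ∀ c : k, algebraMap k E c ≠ g) :
    dsc k g ≠ 0 := by
  have := cub_fd h3
  obtain ⟨b, h0, h1, h2⟩ := exists_cub_basis h3 hg
  have h4 := Algebra.discr_not_zero_of_basis k b
  have h5 : (b : Fin 3 → E) = fun i : Fin 3 => g ^ (i : ℕ) := by
    funext i
    fin_cases i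
    · simp [h0]
    · simp [h1]
    · simp [h2]
  rwa [h5, discr_eq_dsc h3] at h4

theorem dsc_coeff (h3 : finrank k E = 3) {g : E} (hg : ∀ c : k, algebraMap k E c ≠ g)
    {m : k[X]} (hm : m.Monic) (hn : m.natDegree = 3) (h0 : aeval g m = 0) :
    dsc k g = m.coeff 2 ^ 2 * m.coeff 1 ^ 2 - 4 * m.coeff 1 ^ 3 - 4 * m.coeff 2 ^ 3 * m.coeff 0 -
      27 * m.coeff 0 ^ 2 + 18 * m.coeff 2 * m.coeff 1 * m.coeff 0 := by
  obtain ⟨e₁, e₂, e₃, he, ht1, ht2, -⟩ := exists_cub h3 hg
  obtain ⟨ht3, ht4⟩ := trace_pow h3 he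
  rw [aeval_eq_sum_range, hn, Finset.sum_range_succ, Finset.sum_range_succ, Finset.sum_range_succ,
    Finset.sum_range_one] at h0
  have h3c : m.coeff 3 = 1 := by rw [← hn]; exact hm
  rw [h3c, one_smul, pow_zero, pow_one, he] at h0
  simp only [Algebra.smul_def, mul_one] at h0
  obtain ⟨a0, a1, a2⟩ := cub_indep h3 hg (a₀ := m.coeff 0 + e₃) (a₁ := m.coeff 1 - e₂)
    (a₂ := m.coeff 2 + e₁) (by
      simp only [map_add, map_sub]
      linear_combination h0)
  have b0 : e₃ = -m.coeff 0 := by linear_combination a0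
  have b1 : e₂ = m.coeff 1 := by linear_combination -a1
  have b2 : e₁ = -m.coeff 2 := by linear_combination a2
  rw [dsc, ht4, ht3, ht2, ht1, b0, b1, b2]
  ring

end fld

section alg

variable {k D : Type} [Field k] [DivisionRing D] [Algebra k D]

/-- The discriminant, as a function on a division algebra of dimension `72`. -/
noncomputable def Dt (k : Type) {D : Type} [Field k] [DivisionRing D] [Algebra k D] (z : D) : k :=
  3 * (tr k (z ^ 2) / 24 * (tr k (z ^ 4) / 24) - tr k (z ^ 3) / 24 * (tr k (z ^ 3) / 24)) -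
    tr k z / 24 * (tr k z / 24 * (tr k (z ^ 4) / 24) - tr k (z ^ 2) / 24 * (tr k (z ^ 3) / 24)) +
    tr k (z ^ 2) / 24 * (tr k z / 24 * (tr k (z ^ 3) / 24) -
      tr k (z ^ 2) / 24 * (tr k (z ^ 2) / 24))

theorem Dt_eq [CharZero k] (hD : finrank k D = 72) {L : Type} [Field L] [Algebra k L]
    (h3 : finrank k L = 3) (ι : L →ₐ[k] D) (c : L) : Dt k (ι c) = dsc k c := by
  have hfd := cub_fd h3
  have : FiniteDimensional k D := Module.finite_of_finrank_pos (by rw [hD]; norm_num)
  obtain ⟨r, hr⟩ := trace_sub ι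
  have h1 := hr 1
  rw [map_one, tr_one, hD, trace_one_cub h3] at h1
  have h24 : (24 : k) ≠ 0 := by norm_num
  have hr24 : (r : k) = 24 := by
    have h2 : (3 : k) ≠ 0 := by norm_num
    apply mul_right_cancel₀ h2
    rw [← h1]
    norm_num
  have h4 : ∀ y : L, tr k (ι y) / 24 = Algebra.trace k L y := fun y => by
    rw [hr, hr24]
    field_simp
  rw [Dt, ← map_pow, ← map_pow, ← map_pow, h4, h4, h4, h4, dsc]
  ring

variable [NumberField k] {M : ℕ} {B : Module.Basis (Fin M) k D} {p : Pl k}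

/-- The trace, as an endomorphism. -/
noncomputable def trD (k : Type) {D : Type} [Field k] [DivisionRing D] [Algebra k D] :
    D →ₗ[k] D := (Algebra.linearMap k D).comp (tr k)

theorem trD_apply (z : D) : trD k z = algebraMap k D (tr k z) := rfl

theorem tn_pow' {X : Type} {l : Filter X} {f : X → D} {a : D} (hf : Tn B p l f a) (e : ℕ) :
    Tn B p l (fun x => f x ^ e) (a ^ e) := by
  induction e with
  | zero => simpa only [pow_zero] using Tn.const (B := B) (p := p) (l := l) 1
  | succ e ih => simpa only [pow_succ] using ih.mul hf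

/-- Continuity of the discriminant. -/
theorem tn_Dt {X : Type} {l : Filter X} {f : X → D} {a : D} (hf : Tn B p l f a) :
    Tn B p l (fun x => algebraMap k D (Dt k (f x))) (algebraMap k D (Dt k a)) := by
  have h : ∀ e : ℕ, Tn B p l (fun x => algebraMap k D (tr k (f x ^ e) / 24))
      (algebraMap k D (tr k (a ^ e) / 24)) := by
    intro e
    have h1 := ((tn_pow' hf e).linear (trD k)).mul (Tn.const (algebraMap k D (24 : k)⁻¹))
    have h2 : ∀ z : D, trD k (z ^ e) * algebraMap k D (24 : k)⁻¹ =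
        algebraMap k D (tr k (z ^ e) / 24) := fun z => by
      rw [trD_apply, ← map_mul, div_eq_mul_inv]
    simpa only [h2] using h1
  have h1 := h 1
  simp only [pow_one] at h1
  have h5 := ((Tn.const (algebraMap k D (3 : k))).mul (((h 2).mul (h 4)).sub ((h 3).mul (h 3)))).sub
    (h1.mul ((h1.mul (h 4)).sub ((h 2).mul (h 3))))
  have h6 := h5.add ((h 2).mul ((h1.mul (h 3)).sub ((h 2).mul (h 2))))
  simp only [Dt, map_add, map_sub, map_mul]
  exact h6

theorem near_of_tn {F : D → k} {a : k}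
    (hF : ∀ {l : Filter D}, Tn B p l (fun x => x) 1 →
      Tn B p l (fun x => algebraMap k D (F x)) (algebraMap k D a)) {ε : ℝ} (hε : 0 < ε) :
    ∃ η : ℝ, 0 < η ∧ ∀ x : D, nm B p (x - 1) < η → plAbv p (F x - a) < ε := by
  have h0 : 0 < nm B p (1 : D) := nm_pos' B p one_ne_zero
  have h1 : Tn B p (Filter.comap (fun z : D => nm B p (z - 1)) (nhds 0)) (fun z => z) 1 :=
    Filter.tendsto_comap
  have h2 := (hF h1).ev_lt (mul_pos hε h0)
  rw [Filter.eventually_comap, Metric.eventually_nhds_iff] at h2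
  obtain ⟨δ, hδ, h⟩ := h2
  refine ⟨δ, hδ, fun z hz => ?_⟩
  have h3 := h (y := nm B p (z - 1)) (by
    rw [Real.dist_0_eq_abs, abs_of_nonneg (nm_nonneg B p _)]
    exact hz) z rfl
  rw [← map_sub, Algebra.algebraMap_eq_smul_one, nm_smul] at h3
  exact lt_of_mul_lt_mul_right h3 h0.le

end alg

end Vale.Agent.P011.Six.H586
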