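import Vale.Agent.P011.Six.H586.Yel
import Vale.Agent.P011.Six.NonComm
import Vale.Agent.P011.Six.H359.Near1
import Vale.Agent.P011.One.StepOne
import Vale.Agent.P011.Pow.Kappa
import Vale.Agent.P011.Pow.Numb

/-!
Degree six (helper586): unitary elements of reduced norm one of a symmetric field, close to one.
-/

open Module Matrix Polynomial NumberField IsDedekindDomain Filter Topology

set_option linter.unusedSectionVars false

namespace Vale.Agent.P011.Six.H586

open Vale.Agent.P011.Arith Vale.Agent.P011.Even Vale.Agent.P011.One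
open Vale.Agent.P011.Two hiding cay
open Vale.Agent.P011.Six.H359 (Fr th)
open Vale.Agent.P011.W (HasNrd)

variable {k K D : Type} [Field k] [NumberField k] [Field K] [NumberField K] [StarRing K]
    [DivisionRing D] [StarRing D] [Algebra k K] [Algebra k D] [Algebra K D] [IsScalarTower k K D]
    {d : kˣ} {s : K} {al be : kˣ} {i j : D}

theorem star_aeval_k (hS : Setting k K D d s) {y : D} (hy : star y = y) (p : k[X]) :
    star (aeval y p) = aeval y p := by
  induction p using Polynomial.induction_on' with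
  | add p q hp hq => rw [map_add, star_add, hp, hq]
  | monomial n a =>
    rw [aeval_monomial, star_mul, star_pow, hy, Even.star_alg hS]
    exact ((Algebra.commutes a (y ^ n)).symm)

/-- The field generated by the symmetric element. -/
theorem exists_F (hS : Setting k K D d s) {y : D} (hy : YEl (k := k) d al be i j y) :
    ∃ (F : Type) (_ : Field F) (_ : NumberField F) (_ : Algebra k F) (ι : F →ₐ[k] D) (g : F),
      ι g = y ∧ finrank k F = 3 ∧ (∀ t, star (ι t) = ι t) ∧
      (∀ c : k, algebraMap k F c ≠ g) ∧ minpoly k g = minpoly k y := by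
  have := hS.fin_k
  obtain ⟨F, _, _, _, ι, g, hg, hgen⟩ := exists_gen (Module.finBasis k D) y
  have hmin : minpoly k g = minpoly k y := by
    rw [← hg, minpoly.algHom_eq ι ι.toRingHom.injective]
  have hfF : FiniteDimensional k F := Module.Finite.of_restrictScalars_finite ℚ k F
  have h1 : Algebra.adjoin k {g} = ⊤ := by
    rw [eq_top_iff]
    intro x _
    obtain ⟨p, rfl⟩ := hgen x
    exact aeval_mem_adjoin_singleton k g
  have h2 : IntermediateField.adjoin k {g} = ⊤ := by
    rw [eq_top_iff]
    intro x _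
    have h3 : x ∈ Algebra.adjoin k {g} := by rw [h1]; trivial
    exact IntermediateField.algebra_adjoin_le_adjoin k {g} h3
  have h3 : finrank k F = 3 := by
    have h4 := (Field.primitive_element_iff_minpoly_natDegree_eq k g).mp h2
    rw [← h4, hmin, hy.deg]
  refine ⟨F, inferInstance, inferInstance, inferInstance, ι, g, hg, h3, fun t => ?_, ?_, hmin⟩
  · obtain ⟨p, rfl⟩ := hgen t
    rw [← aeval_algHom_apply, hg]
    exact star_aeval_k hS hy.sym p
  · rintro c rfl
    have h4 := hy.deg
    rw [← hmin, minpoly.eq_X_sub_C, natDegree_X_sub_C] at h4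
    norm_num at h4

section near

variable {M : ℕ} {B : Module.Basis (Fin M) k D} {p : Pl k}

/-- The filter of the small elements of the base field. -/
noncomputable def zf (p : Pl k) : Filter k := comap (fun c : k => plAbv p c) (𝓝 0)

theorem tn_smul_zf (σ : D) : Tn B p (zf p) (fun c : k => c • σ) 0 := by
  have h1 : Tendsto (fun c : k => plAbv p (c - 0)) (zf p) (𝓝 0) := by
    simp only [sub_zero]
    exact tendsto_comap
  have h2 := Tn.smul (B := B) h1 σ
  rwa [zero_smul] at h2

theorem ev_zf {P : k → Prop} (h : ∀ᶠ c in zf p, P c) :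
    ∃ δ : ℝ, 0 < δ ∧ ∀ c : k, plAbv p c < δ → P c := by
  rw [zf, eventually_comap, Metric.eventually_nhds_iff] at h
  obtain ⟨θ, hθ, h⟩ := h
  refine ⟨θ, hθ, fun y hy => h ?_ y rfl⟩
  rw [Real.dist_0_eq_abs, abs_of_nonneg (AbsoluteValue.nonneg _ _)]
  exact hy

theorem cay_zero : cay (0 : D) = 1 := by
  rw [cay, sub_zero, add_zero, inv_one, mul_one]

theorem star_smul_skew (hS : Setting k K D d s) {σ : D} (hσ : star σ = -σ) (c : k) :
    star (c • σ) = -(c • σ) := by
  rw [Algebra.smul_def, star_mul, hσ, Even.star_alg hS, neg_mul, Algebra.commutes]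

theorem tn_w (σ : D) : Tn B p (zf p) (fun c : k => cay (c • σ)) 1 := by
  have h := Tn.cay (tn_smul_zf (B := B) (p := p) σ) (by rw [add_zero]; exact one_ne_zero)
  rwa [cay_zero] at h

theorem tn_geom {X : Type} {l : Filter X} {f : X → D} (hf : Tn B p l f 1) (m : ℕ) :
    Tn B p l (fun x => ∑ a ∈ Finset.range m, f x ^ a) (m : D) := by
  induction m with
  | zero => simpa using Tn.const (B := B) (p := p) (l := l) (0 : D)
  | succ m ih =>
    have h := ih.add (tn_pow hf m)
    simp only [Finset.sum_range_succ, Nat.cast_succ]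
    rwa [one_pow] at h

/-- The powers of the Cayley transforms of small multiples are not central. -/
theorem pow_noncentral (hS : Setting k K D d s) (B : Module.Basis (Fin M) k D) (p : Pl k) {σ : D} (hσ : star σ = -σ)
    {g : D} (hg : σ * g ≠ g * σ) {m : ℕ} (hm : m ≠ 0) :
    ∃ δ : ℝ, 0 < δ ∧ ∀ c : k, c ≠ 0 → plAbv p c < δ →
      cay (c • σ) ^ m * g ≠ g * cay (c • σ) ^ m := by
  have _ : CharZero D := charZero_of_injective_algebraMap (algebraMap k D).injective
  obtain ⟨G, hG⟩ : ∃ G : k → D, G = fun c => -(2 * σ) * (1 + c • σ)⁻¹ *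
    ∑ a ∈ Finset.range m, cay (c • σ) ^ a := ⟨_, rfl⟩
  have h1 : Tn B p (zf p) G (-(2 * σ) * 1⁻¹ * (m : D)) := by
    rw [hG]
    refine (Tn.mul (Tn.const _) ?_).mul (tn_geom (tn_w σ) m)
    have h := (Tn.const (B := B) (p := p) (l := zf p) (1 : D)).add (tn_smul_zf σ)
    rw [add_zero] at h
    exact h.inv one_ne_zero
  have h2 : Tn B p (zf p) (fun c => G c * g - g * G c)
      (-(2 * σ) * 1⁻¹ * (m : D) * g - g * (-(2 * σ) * 1⁻¹ * (m : D))) :=
    (h1.mul (Tn.const g)).sub ((Tn.const g).mul h1)
  have hm0 : (m : D) ≠ 0 := Nat.cast_ne_zero.mpr hm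
  have hne : -(2 * σ) * 1⁻¹ * (m : D) * g - g * (-(2 * σ) * 1⁻¹ * (m : D)) ≠ 0 := by
    have e : -(2 * σ) * 1⁻¹ * (m : D) * g - g * (-(2 * σ) * 1⁻¹ * (m : D)) =
        (2 * m : D) * (g * σ - σ * g) := by
      have c1 : ∀ z : D, z * (m : D) = m * z := fun z => (Nat.cast_commute m z).symm.eq
      have c2 : ∀ z : D, z * (2 : D) = 2 * z := fun z => (Nat.cast_commute 2 z).symm.eq
      rw [inv_one, mul_one, c1, ← mul_assoc g, c1]
      have e1 : g * -(2 * σ) = -(2 * (g * σ)) := by rw [mul_neg, ← mul_assoc, c2, mul_assoc]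
      rw [mul_assoc (m : D), mul_assoc (m : D), e1, ← mul_sub, mul_assoc (2 : D) (m : D)]
      rw [← mul_assoc (2 : D) (m : D), c2 (m : D)|>.symm]
      rw [mul_assoc (m : D) 2]
      congr 1
      noncomm_ring
    rw [e]
    exact mul_ne_zero (mul_ne_zero two_ne_zero hm0) (sub_ne_zero.mpr (Ne.symm hg))
  obtain ⟨δ, hδ, h⟩ := ev_zf (h2.ev_ne hne)
  refine ⟨δ, hδ, fun c hc hcδ hcomm => h c hcδ ?_⟩
  have hne1 : 1 + c • σ ≠ 0 := skew_add_ne (star_smul_skew hS hσ c)
  have e2 : c • G c = cay (c • σ) ^ m - 1 := by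
    rw [← mul_geom_sum, hG]
    have e3 : cay (c • σ) - 1 = c • (-(2 * σ) * (1 + c • σ)⁻¹) := by
      have e4 : (1 : D) = (1 + c • σ) * (1 + c • σ)⁻¹ := (mul_inv_cancel₀ hne1).symm
      rw [cay]
      nth_rewrite 3 [e4]
      rw [← sub_mul, ← smul_mul_assoc]
      congr 1
      rw [smul_neg, ← mul_smul_comm]
      noncomm_ring
    rw [e3]
    simp only [smul_mul_assoc]
  have e3 : c • (G c * g - g * G c) = 0 := by
    rw [smul_sub, ← smul_mul_assoc, ← mul_smul_comm, e2, sub_mul, mul_sub, hcomm, one_mul,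
      mul_one, sub_self]
  exact (smul_eq_zero.mp e3).resolve_left hc

end near

section nrd

variable {M : ℕ} (B : Module.Basis (Fin M) k D) (p : Pl k)

/-- The reduced norm is continuous at one. -/
theorem nrd_near (hS : Setting k K D d s) {n : ℕ} (hdeg : finrank K D = n ^ 2) {ε : ℝ}
    (hε : 0 < ε) : ∃ η : ℝ, 0 < η ∧ ∀ (w : D) (c : K), HasNrd K n w c → nm B p (w - 1) < η →
      nm B p (algebraMap K D c - 1) < ε := by
  classical
  have hKc : CharZero K := charZero_of_injective_algebraMap (algebraMap k K).injective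
  have := hS.fin
  have := hS.cen
  obtain ⟨g⟩ := Vale.Agent.P011S.exists_split (K := K) (D := D) hdeg (AlgebraicClosure K)
  obtain ⟨ρ, hρ'⟩ := (Algebra.linearMap K (AlgebraicClosure K)).exists_leftInverse_of_injective
    (LinearMap.ker_eq_bot.mpr (algebraMap K (AlgebraicClosure K)).injective)
  have hρ : ∀ c, ρ (algebraMap K (AlgebraicClosure K) c) = c := fun c =>
    LinearMap.congr_fun hρ' c
  let gl : D →ₗ[k] Matrix (Fin n) (Fin n) (AlgebraicClosure K) :=
    { toFun := g
      map_add' := map_add g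
      map_smul' := fun c x => by
        rw [RingHom.id_apply, ← algebraMap_smul K c x, map_smul]
        ext a b
        rw [Matrix.smul_apply, Matrix.smul_apply, algebraMap_smul] }
  let A : K →ₗ[k] D :=
    { toFun := algebraMap K D
      map_add' := map_add _
      map_smul' := fun c x => by
        rw [RingHom.id_apply, Algebra.smul_def, map_mul, ← IsScalarTower.algebraMap_apply,
          Algebra.smul_def] }
  let Λ : Fin M → (AlgebraicClosure K →ₗ[k] k) := fun i =>
    (B.coord i).comp (A.comp (ρ.restrictScalars k))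
  have hΛ : ∀ i c, Λ i (algebraMap K (AlgebraicClosure K) c) = B.repr (algebraMap K D c) i := by
    intro i c
    change B.repr (algebraMap K D (ρ (algebraMap K (AlgebraicClosure K) c))) i = _
    rw [hρ]
  choose η hη H using fun i => Pow.det_near B gl (Λ i) p (1 : D)
    (div_pos hε (show (0 : ℝ) < M + 1 by positivity))
  by_cases hM : Nonempty (Fin M)
  swap
  · refine ⟨1, one_pos, fun w c _ _ => ?_⟩
    rw [not_nonempty_iff] at hM
    rw [Even.nm, Finset.univ_eq_empty, Finset.sum_empty]
    exact hε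
  refine ⟨Finset.univ.inf' Finset.univ_nonempty η, ?_, fun w c hw hn => ?_⟩
  · rw [Finset.lt_inf'_iff]
    exact fun i _ => hη i
  · have h1 : ∀ i, plAbv p (B.repr (algebraMap K D c - 1) i) < ε / (M + 1) := by
      intro i
      have h2 := H i w (hn.trans_le (Finset.inf'_le _ (Finset.mem_univ i)))
      have e1 : (gl w).det = algebraMap K (AlgebraicClosure K) c := hw _ g
      have e2 : (gl 1).det = algebraMap K (AlgebraicClosure K) 1 := by
        change (g 1).det = _
        rw [map_one, Matrix.det_one, map_one]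
      rw [e1, e2, hΛ, hΛ, map_one] at h2
      rwa [map_sub, Finsupp.sub_apply]
    calc nm B p (algebraMap K D c - 1) ≤ ∑ _i : Fin M, ε / (M + 1) :=
          Finset.sum_le_sum fun i _ => (h1 i).le
      _ = M * (ε / (M + 1)) := by rw [Finset.sum_const, Finset.card_univ, Fintype.card_fin,
          nsmul_eq_mul]
      _ < ε := by
        rw [mul_div_assoc', div_lt_iff₀ (by positivity)]
        nlinarith

theorem tn_nrd (hS : Setting k K D d s) {n : ℕ} (hdeg : finrank K D = n ^ 2) {X : Type}
    {l : Filter X} {f : X → D} (hf : Tn B p l f 1) {c : X → K} (hc : ∀ x, HasNrd K n (f x) (c x)) :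
    Tn B p l (fun x => algebraMap K D (c x)) 1 := by
  refine tendsto_order.mpr ⟨fun a ha => Eventually.of_forall fun x =>
    ha.trans_le (nm_nonneg B p _), fun ε hε => ?_⟩
  obtain ⟨η, hη, H⟩ := nrd_near B p hS hdeg hε
  filter_upwards [hf.ev_lt hη] with x hx
  exact H _ _ (hc x) hx

end nrd

/-- Small nonzero elements. -/
theorem exists_small {T : Set (HeightOneSpectrum (𝓞 k))} (hT : T.Finite)
    (δ : HeightOneSpectrum (𝓞 k) → ℝ) (hδ : ∀ v, 0 < δ v) :
    ∃ c : k, c ≠ 0 ∧ ∀ v ∈ T, plAbv (.inl v) c < δ v := by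
  classical
  obtain ⟨v₀, hv₀⟩ := Pow.exists_out hT
  obtain ⟨c, hc⟩ := approx (Sum.inl '' (insert v₀ T)) ((hT.insert v₀).image _)
    (fun p => if p = .inl v₀ then 1 else 0)
    (Sum.elim (fun v => if v = v₀ then 1 else δ v) (fun _ => 1)) (by
      rintro (v | φ)
      · simp only [Sum.elim_inl]
        split_ifs
        · exact one_pos
        · exact hδ v
      · exact one_pos)
  refine ⟨c, ?_, fun v hv => ?_⟩
  · rintro rfl
    have h := hc (.inl v₀) ⟨v₀, Set.mem_insert _ _, rfl⟩
    simp at h
  · have hne : v ≠ v₀ := fun h => hv₀ (h ▸ hv)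
    have h := hc (.inl v) ⟨v, Set.mem_insert_of_mem _ hv, rfl⟩
    simpa [hne] using h

end Vale.Agent.P011.Six.H586
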