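import Vale.Agent.P011.Six.H586.Loc
import Vale.Agent.P011.One.TwoModel

/-!
Degree six (helper586): local conditions at split places.
-/

open Module Matrix Polynomial NumberField IsDedekindDomain TensorProduct Filter Topology

set_option linter.unusedSectionVars false

namespace Vale.Agent.P011.Six.H586

open Vale.Agent.P011.Arith Vale.Agent.P011.Even

variable {k K D : Type} [Field k] [NumberField k] [Field K] [StarRing K]
    [DivisionRing D] [StarRing D] [Algebra k K] [Algebra k D] [Algebra K D] [IsScalarTower k K D]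
    {d : kˣ} {s : K} {N : ℕ}

section model

variable {R : Type} [Field R] [Algebra k R] (B : Basis (Fin N) k D) (φ : K →+* R)
  (hφ : ∀ c : k, φ (algebraMap k K c) = algebraMap k R c)
  (f : D →+* Matrix (Fin 3) (Fin 3) R)
  (hf : ∀ c : K, f (algebraMap K D c) = Matrix.scalar (Fin 3) (φ c))

include hφ hf in
theorem f_ksmul (c : k) (x : D) : f (c • x) = algebraMap k R c • f x := by
  rw [Algebra.smul_def, map_mul, IsScalarTower.algebraMap_apply k K D, hf, hφ]
  ext a b
  rw [Matrix.scalar_apply, Matrix.diagonal_mul, Matrix.smul_apply, smul_eq_mul]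

include hf in
theorem f_Kmul (c : K) (x : D) : f (algebraMap K D c * x) = φ c • f x := by
  rw [map_mul, hf]
  ext a b
  rw [Matrix.scalar_apply, Matrix.diagonal_mul, Matrix.smul_apply, smul_eq_mul]

include hφ hf in
/-- The split model: prescribed images of an element and of its conjugate. -/
theorem exists_coord (hS : Setting k K D d s) (hdeg : finrank K D = 3 ^ 2)
    (X Y : Matrix (Fin 3) (Fin 3) R) : ∃ b : Fin N → R, ∑ j, b j • f (B j) = X ∧
      ∑ j, b j • f (star (B j)) = Y := by
  have := hS.fin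
  have := hS.cen
  have : CharZero R := charZero_of_injective_algebraMap (algebraMap k R).injective
  let M := Matrix (Fin 3) (Fin 3) R
  let Φ : (Fin N → R) →ₗ[R] M × M :=
    { toFun := fun b => (∑ j, b j • f (B j), ∑ j, b j • f (star (B j)))
      map_add' := fun b c => by
        simp only [Pi.add_apply, add_smul, Finset.sum_add_distrib, Prod.mk_add_mk]
      map_smul' := fun r b => by
        simp only [Pi.smul_apply, smul_eq_mul, mul_smul, Finset.smul_sum, RingHom.id_apply,
          Prod.smul_mk] }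
  have h1 : ∀ y : D, (f y, f (star y)) ∈ LinearMap.range Φ := by
    intro y
    refine ⟨fun j => algebraMap k R (B.repr y j), ?_⟩
    change (∑ j, algebraMap k R (B.repr y j) • f (B j),
      ∑ j, algebraMap k R (B.repr y j) • f (star (B j))) = _
    have e1 : f y = ∑ j, algebraMap k R (B.repr y j) • f (B j) := by
      conv_lhs => rw [← B.sum_repr y]
      rw [map_sum]
      exact Finset.sum_congr rfl fun j _ => f_ksmul φ hφ f hf _ _
    have e2 : f (star y) = ∑ j, algebraMap k R (B.repr y j) • f (star (B j)) := by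
      conv_lhs => rw [← B.sum_repr y]
      rw [star_sum, map_sum]
      refine Finset.sum_congr rfl fun j _ => ?_
      have e3 : star (B.repr y j • B j) = B.repr y j • star (B j) := by
        rw [← algebraMap_smul K (B.repr y j) (B j), hS.star_smul,
          (hS.fix _).mpr ⟨_, rfl⟩, algebraMap_smul]
      rw [e3]
      exact f_ksmul φ hφ f hf _ _
    rw [← e1, ← e2]
  have hs0 : s ≠ 0 := by
    intro h0
    have h2 := hS.sq
    rw [h0, zero_pow two_ne_zero] at h2
    exact (d.ne_zero) ((algebraMap k K).injective (by rw [← h2, map_zero]))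
  obtain ⟨δ, hδ⟩ : ∃ δ, δ = φ s := ⟨_, rfl⟩
  have hδ0 : δ ≠ 0 := by rw [hδ]; exact (map_ne_zero φ).mpr hs0
  have h2δ : 2 * δ ≠ 0 := mul_ne_zero two_ne_zero hδ0
  have hst : ∀ y : D, star (algebraMap K D s * y) = -(algebraMap K D s * star y) := by
    intro y
    rw [← Algebra.smul_def, hS.star_smul, hS.star_s, neg_smul, Algebra.smul_def]
  have h3 : ∀ y : D, (f y, (0 : M)) ∈ LinearMap.range Φ := by
    intro y
    have h4 := add_mem (Submodule.smul_mem _ δ (h1 y)) (h1 (algebraMap K D s * y))
    have h5 := Submodule.smul_mem _ (2 * δ)⁻¹ h4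
    rw [hst, map_neg, f_Kmul φ f hf, f_Kmul φ f hf, ← hδ] at h5
    have e : (2 * δ)⁻¹ • (δ • (f y, f (star y)) + (δ • f y, -(δ • f (star y)))) =
        ((f y, 0) : M × M) := by
      refine Prod.ext ?_ ?_
      · change (2 * δ)⁻¹ • (δ • f y + δ • f y) = f y
        rw [← add_smul, ← two_mul, smul_smul, inv_mul_cancel₀ h2δ, one_smul]
      · change (2 * δ)⁻¹ • (δ • f (star y) + -(δ • f (star y))) = 0
        rw [add_neg_cancel, smul_zero]
    rw [e] at h5
    exact h5
  have h4 : ∀ y : D, ((0 : M), f y) ∈ LinearMap.range Φ := by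
    intro y
    have h5 := sub_mem (h1 (star y)) (h3 (star y))
    rw [star_star, Prod.mk_sub_mk, sub_self, sub_zero] at h5
    exact h5
  have hspan : ∀ Z : M, Z ∈ Submodule.span R (Set.range fun i => f (finBasis K D i)) := by
    intro Z
    have h5 := Vale.Agent.P011.One.split_linInd (n := 3) (by norm_num) f (finBasis K D)
    have h6 : Submodule.span R (Set.range fun i => f (finBasis K D i)) = ⊤ := by
      refine h5.span_eq_top_of_card_eq_finrank' ?_
      rw [Fintype.card_fin, hdeg, finrank_matrix, Fintype.card_fin, finrank_self, mul_one, pow_two]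
    rw [h6]
    trivial
  have h5 : ∀ Z : M, (Z, (0 : M)) ∈ LinearMap.range Φ := by
    intro Z
    have h6 : Submodule.span R (Set.range fun i => f (finBasis K D i)) ≤
        (LinearMap.range Φ).comap (LinearMap.inl R M M) := by
      rw [Submodule.span_le]
      rintro _ ⟨i, rfl⟩
      exact h3 _
    exact h6 (hspan Z)
  have h6 : ∀ Z : M, ((0 : M), Z) ∈ LinearMap.range Φ := by
    intro Z
    have h6 : Submodule.span R (Set.range fun i => f (finBasis K D i)) ≤
        (LinearMap.range Φ).comap (LinearMap.inr R M M) := by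
      rw [Submodule.span_le]
      rintro _ ⟨i, rfl⟩
      exact h4 _
    exact h6 (hspan Z)
  obtain ⟨b, hb⟩ := add_mem (h5 X) (h6 Y)
  rw [Prod.mk_add_mk, add_zero, zero_add] at hb
  exact ⟨b, congrArg Prod.fst hb, congrArg Prod.snd hb⟩

end model

/-- The companion matrix. -/
def comp {R : Type} [Field R] (u : R) : Matrix (Fin 3) (Fin 3) R := !![0, 0, 0; 0, 0, u; 0, 1, 0]

theorem comp_sq {R : Type} [Field R] (u : R) :
    comp u ^ 2 = !![0, 0, 0; 0, u, 0; 0, 0, u] := by
  rw [pow_two, comp]
  ext i j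
  fin_cases i <;> fin_cases j <;> simp [Matrix.mul_apply, Fin.sum_univ_three]

theorem comp_cub {R : Type} [Field R] (u : R) : comp u ^ 3 = u • comp u := by
  rw [pow_succ, comp_sq, comp]
  ext i j
  fin_cases i <;> fin_cases j <;> simp [Matrix.mul_apply, Fin.sum_univ_three]

theorem comp_ind {R : Type} [Field R] {u : R} (hu : u ≠ 0) :
    LinearIndependent R (fun i : Fin 3 => comp u ^ (i : ℕ)) := by
  rw [Fintype.linearIndependent_iff]
  intro c hc
  rw [Fin.sum_univ_three] at hc
  simp only [Fin.val_zero, Fin.val_one, Fin.val_two, pow_zero, pow_one, comp_sq] at hc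
  have h00 := congrFun (congrFun hc 0) 0
  have h21 := congrFun (congrFun hc 2) 1
  have h11 := congrFun (congrFun hc 1) 1
  simp [comp] at h00 h21 h11
  rw [h00, zero_add] at h11
  intro i
  fin_cases i
  · exact h00
  · exact h21
  · exact (mul_eq_zero.mp h11).resolve_right hu

/-- The general condition at a split place. -/
theorem goodY_split (hS : Setting k K D d s) (hdeg : finrank K D = 3 ^ 2)
    (B : Basis (Fin N) k D) (p : Pl k) {R : Type} [NormedField R] [Algebra k R]
    (hp : ∀ c : k, ‖algebraMap k R c‖ = plAbv p c)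
    (hdense : ∀ (x : R) (ε : ℝ), 0 < ε → ∃ c : k, ‖algebraMap k R c - x‖ < ε)
    (hopen : ∀ x : R, ¬ IsSquare x → ∀ᶠ y in 𝓝 x, ¬ IsSquare y)
    (hsq : ∀ u : kˣ, u ∈ LSp p → IsSquare (algebraMap k R u)) (φ : K →+* R)
    (hφ : ∀ c : k, φ (algebraMap k K c) = algebraMap k R c)
    (f : D →+* Matrix (Fin 3) (Fin 3) R)
    (hf : ∀ c : K, f (algebraMap K D c) = Matrix.scalar (Fin 3) (φ c)) (u : R)
    (hu : ¬ IsSquare u) :
    ∃ (x : Fin N → k) (δ : ℝ), 0 < δ ∧ ∀ β : D, (∀ j, plAbv p (B.repr β j - x j) < δ) →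
      GoodY (d : k) p (β * star β) := by
  classical
  have : CharZero R := charZero_of_injective_algebraMap (algebraMap k R).injective
  have hu0 : u ≠ 0 := by
    rintro rfl
    exact hu ⟨0, by rw [mul_zero]⟩
  obtain ⟨b, hb1, hb2⟩ := exists_coord B φ hφ f hf hS hdeg (comp u) 1
  let M := Matrix (Fin 3) (Fin 3) R
  let g : D →+* M × M :=
    { toFun := fun x => (f x, (f (star x))ᵀ)
      map_one' := by rw [star_one, map_one, Matrix.transpose_one]; rfl
      map_mul' := fun x y => by
        rw [star_mul, map_mul, map_mul, Matrix.transpose_mul]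
        rfl
      map_zero' := by rw [star_zero, map_zero, Matrix.transpose_zero]; rfl
      map_add' := fun x y => by
        rw [star_add, map_add, map_add, Matrix.transpose_add]
        rfl }
  have hgx : ∀ x, g x = (f x, (f (star x))ᵀ) := fun _ => rfl
  let τ : M × M →ₗ[R] M × M :=
    { toFun := fun z => (z.2ᵀ, z.1ᵀ)
      map_add' := fun z w => by
        rw [Prod.fst_add, Prod.snd_add, Matrix.transpose_add, Matrix.transpose_add]
        rfl
      map_smul' := fun c z => by
        rw [Prod.smul_fst, Prod.smul_snd, Matrix.transpose_smul, Matrix.transpose_smul]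
        rfl }
  have hτx : ∀ z : M × M, τ z = (z.2ᵀ, z.1ᵀ) := fun _ => rfl
  have hT : ∑ j, b j • g (B j) = (comp u, 1) := by
    rw [← hb1]
    refine Prod.ext ?_ ?_
    · rw [Prod.fst_sum]
      exact Finset.sum_congr rfl fun j _ => rfl
    · rw [Prod.snd_sum]
      have h1 := congrArg Matrix.transpose hb2
      rw [Matrix.transpose_one, Matrix.transpose_sum] at h1
      rw [← h1]
      exact Finset.sum_congr rfl fun j _ => (Matrix.transpose_smul _ _).symm
  have hz : (∑ j, b j • g (B j)) * τ (∑ j, b j • g (B j)) = (comp u, (comp u)ᵀ) := by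
    rw [hT, hτx, Matrix.transpose_one, Prod.mk_mul_mk, mul_one, one_mul]
  have hq2 : (X ^ 3 + C (0 : R) * X ^ 2 + C (-u) * X + C 0 : R[X]) = X ^ 3 - C u * X := by
    rw [map_zero, map_neg]
    ring
  have hqn : (X ^ 3 - C u * X : R[X]).natDegree = 3 := by
    compute_degree!
  have hqm : (X ^ 3 - C u * X : R[X]).Monic := by
    rw [Monic, leadingCoeff, hqn]
    simp
  refine good_of B (d : k) p hp hdense hopen hsq (finBasis R (M × M)) g (fun a x => ?_) τ
    (fun x => ?_) b ?_ (q := X ^ 3 - C u * X) hqm hqn ?_ ?_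
  · have e3 : star (a • x) = a • star x := by
      rw [← algebraMap_smul K a x, hS.star_smul, (hS.fix _).mpr ⟨_, rfl⟩, algebraMap_smul]
    rw [hgx, hgx, e3, f_ksmul φ hφ f hf, f_ksmul φ hφ f hf, Matrix.transpose_smul]
    rfl
  · rw [hgx, hτx, hgx, star_star, Matrix.transpose_transpose]
  · rw [hz]
    have h1 : (LinearMap.fst R M M : M × M → M) ∘ (fun i : Fin 3 =>
        ((comp u, (comp u)ᵀ) : M × M) ^ (i : ℕ)) = fun i : Fin 3 => comp u ^ (i : ℕ) := by
      funext i
      rfl
    refine LinearIndependent.of_comp (LinearMap.fst R M M) ?_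
    rw [h1]
    exact comp_ind hu0
  · rw [hz]
    have h3 := comp_cub u
    have h3' : (comp u)ᵀ ^ 3 = u • (comp u)ᵀ := by
      rw [← Matrix.transpose_pow, h3, Matrix.transpose_smul]
    rw [map_sub, map_pow, aeval_X, map_mul, aeval_C, aeval_X, ← Algebra.smul_def, Prod.pow_mk,
      Prod.smul_mk, h3, h3', sub_self]
  · rintro ⟨z, hz'⟩
    have hdsq : IsSquare (algebraMap k R (d : k)) :=
      ⟨φ s, by rw [← hφ, ← hS.sq, pow_two, map_mul]⟩
    obtain ⟨e, he⟩ := hdsq
    have he0 : e ≠ 0 := by
      rintro rfl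
      rw [mul_zero] at he
      exact (map_ne_zero (algebraMap k R)).mpr d.ne_zero he
    rw [← hq2, cd_cubic, he] at hz'
    apply hu
    refine ⟨z / (2 * e * u), ?_⟩
    rw [div_mul_div_comm, eq_div_iff (by
      have : (2 : R) ≠ 0 := two_ne_zero
      positivity), ← hz']
    ring

/-- The condition at a split finite place. -/
theorem goodY_inl_split (hS : Setting k K D d s) (hdeg : finrank K D = 3 ^ 2)
    (B : Basis (Fin N) k D) (v : HeightOneSpectrum (𝓞 k)) (φ : K →+* v.adicCompletion k)
    (hφ : ∀ c : k, φ (algebraMap k K c) = algebraMap k (v.adicCompletion k) c)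
    (f : D →+* Matrix (Fin 3) (Fin 3) (v.adicCompletion k))
    (hf : ∀ c : K, f (algebraMap K D c) = Matrix.scalar (Fin 3) (φ c)) (u : kˣ)
    (hu : u ∉ LS (v.valuation k)) :
    ∃ (x : Fin N → k) (δ : ℝ), 0 < δ ∧ ∀ β : D, (∀ j, plAbv (.inl v) (B.repr β j - x j) < δ) →
      GoodY (d : k) (.inl v) (β * star β) :=
  goodY_split hS hdeg B (.inl v) (norm_algebraMap_eq v) (fun x ε hε => by
    obtain ⟨y, hy⟩ := dense v x ε hε
    exact ⟨y, by rwa [norm_sub_rev]⟩) (open_inl v)
    (fun u hu => (isSquare_iff v u).mpr hu) φ hφ f hf (algebraMap k _ u)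
    (fun h => hu ((isSquare_iff v u).mp h))

/-- The condition at a split real place. -/
theorem goodY_inr_split (hS : Setting k K D d s) (hdeg : finrank K D = 3 ^ 2)
    (B : Basis (Fin N) k D) (τ : k →+* ℝ) (φ : K →+* ℝ)
    (hφ : ∀ c : k, φ (algebraMap k K c) = τ c)
    (f : D →+* Matrix (Fin 3) (Fin 3) ℝ)
    (hf : ∀ c : K, f (algebraMap K D c) = Matrix.scalar (Fin 3) (φ c)) :
    ∃ (x : Fin N → k) (δ : ℝ), 0 < δ ∧ ∀ β : D, (∀ j, plAbv (.inr τ) (B.repr β j - x j) < δ) →
      GoodY (d : k) (.inr τ) (β * star β) := by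
  let _ : Algebra k ℝ := τ.toAlgebra
  refine goodY_split (R := ℝ) hS hdeg B (.inr τ) (fun c => Real.norm_eq_abs _)
    (fun x ε hε => dense_real τ x ε hε) open_real (fun u hu => ?_) φ hφ f hf (-1) ?_
  · have h1 : 0 < τ u := hu
    exact ⟨√(τ u), (Real.mul_self_sqrt h1.le).symm⟩
  · rintro ⟨z, hz⟩
    nlinarith [mul_self_nonneg z]

end Vale.Agent.P011.Six.H586
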