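import Vale.Agent.P011.Six.H586.Ka

/-!
Degree six (helper586): the auxiliary unitary element with prescribed discriminant classes.
-/

open Module Matrix Polynomial NumberField IsDedekindDomain Filter Topology

set_option linter.unusedSectionVars false

namespace Vale.Agent.P011.Six.H586

open Vale.Agent.P011.Arith Vale.Agent.P011.Even Vale.Agent.P011.One
open Vale.Agent.P011.Two hiding cay
open Vale.Agent.P011.Six.H359 (Fr th)
open Vale.Agent.P011.W (HasNrd)

variable {k K D : Type} [Field k] [NumberField k] [Field K] [NumberField K] [StarRing K]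
    [DivisionRing D] [StarRing D] [Algebra k K] [Algebra k D] [Algebra K D] [IsScalarTower k K D]
    {d : kˣ} {s : K} {al be : kˣ} {i j : D}

/-- The reduced norms of unitary elements. -/
theorem exists_nrd_unit (hS : Setting k K D d s) (hdeg : finrank K D = 6 ^ 2) {w : D}
    (hw : w * star w = 1) : ∃ c : K, HasNrd K 6 w c ∧ c * star c = 1 := by
  have hKc : CharZero K := charZero_of_injective_algebraMap (algebraMap k K).injective
  have := hS.fin
  have := hS.cen
  obtain ⟨L, _, _, _, jL, u, hL, rfl⟩ := W.exists_maxfield hdeg w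
  have h1 := W.hasNrd_norm hdeg hL jL u
  refine ⟨_, h1, ?_⟩
  have h2 := W.HasNrd.mul h1 (W.HasNrd.star (fun c => (star_algK hS c)) h1)
  rw [hw] at h2
  exact W.HasNrd.unique hdeg h2 W.HasNrd.one

/-- The element `w⁶ / Nrd w`. -/
theorem kappa_facts (hS : Setting k K D d s) {w : D} {c : K}
    (hw : w * star w = 1) (hc : HasNrd K 6 w c) (hcc : c * star c = 1) :
    (w ^ 6 * algebraMap K D c⁻¹) * star (w ^ 6 * algebraMap K D c⁻¹) = 1 ∧
      HasNrd K 6 (w ^ 6 * algebraMap K D c⁻¹) 1 := by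
  have hc0 : c ≠ 0 := left_ne_zero_of_mul_eq_one hcc
  have hw0 : w ≠ 0 := left_ne_zero_of_mul_eq_one hw
  have hsw : star w = w⁻¹ := eq_inv_of_mul_eq_one_right hw
  have hsc : star c = c⁻¹ := eq_inv_of_mul_eq_one_right hcc
  have hcm : ∀ y : D, algebraMap K D c⁻¹ * y = y * algebraMap K D c⁻¹ := fun y =>
    Algebra.commutes _ _
  constructor
  · rw [star_mul, star_pow, hsw, star_algK hS, star_inv₀, hsc, inv_inv, mul_assoc,
      ← mul_assoc (algebraMap K D c⁻¹), ← map_mul, inv_mul_cancel₀ hc0, map_one, one_mul,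
      inv_pow, mul_inv_cancel₀ (pow_ne_zero 6 hw0)]
  · intro Ω _ _ g
    rw [map_mul, map_pow, Matrix.det_mul, Matrix.det_pow, hc, W.HasNrd.algMap c⁻¹, ← map_pow,
      ← map_mul, ← mul_pow, mul_inv_cancel₀ hc0, one_pow]

/-- The class of the discriminant. -/
theorem cls_nu (hS : Setting k K D d s) (hdeg : finrank K D = 6 ^ 2) {y : D}
    (hy : YEl (k := k) d al be i j y) {w : D} {c : K} {e : ℕ}
    (hw : w * star w = 1) (hc : HasNrd K 6 w c) (hcc : c * star c = 1)
    (hwy : ∃ r : k, w = cay (r • (algebraMap K D s * y))) {g : D}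
    (hnc : w ^ (12 * e) * g ≠ g * w ^ (12 * e)) :
    Dt k (2 + (w ^ 6 * algebraMap K D c⁻¹) ^ e * (w ^ 6 * algebraMap K D c⁻¹) ^ e +
      ((w ^ 6 * algebraMap K D c⁻¹) ^ e * (w ^ 6 * algebraMap K D c⁻¹) ^ e)⁻¹) ≠ 0 ∧
    ∀ p ∈ bad al be, ∀ u : kˣ,
      (u : k) = d * Dt k (2 + (w ^ 6 * algebraMap K D c⁻¹) ^ e *
        (w ^ 6 * algebraMap K D c⁻¹) ^ e + ((w ^ 6 * algebraMap K D c⁻¹) ^ e *
          (w ^ 6 * algebraMap K D c⁻¹) ^ e)⁻¹) → u ∉ LSp p := by
  have hKc : CharZero K := charZero_of_injective_algebraMap (algebraMap k K).injective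
  have hDc : CharZero D := charZero_of_injective_algebraMap (algebraMap k D).injective
  have := hS.fin
  have := hS.cen
  have := hS.fin_k
  have hc0 : c ≠ 0 := left_ne_zero_of_mul_eq_one hcc
  obtain ⟨F, _, _, _, ι, t, ht, h3, hsym, htk, hmin⟩ := exists_F hS hy
  obtain ⟨E, _, _, _, jE, hE, hE3⟩ := exists_EF hS ι hsym
  rw [h3] at hE3
  obtain ⟨κ, hκ⟩ : ∃ κ, κ = w ^ 6 * algebraMap K D c⁻¹ := ⟨_, rfl⟩
  obtain ⟨hκκ, -⟩ := kappa_facts hS hw hc hcc
  rw [← hκ] at hκκ ⊢
  obtain ⟨ν, hν⟩ : ∃ ν, ν = κ ^ e := ⟨_, rfl⟩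
  rw [← hν]
  have hκ0 : κ ≠ 0 := left_ne_zero_of_mul_eq_one hκκ
  have hν0 : ν ≠ 0 := by rw [hν]; exact pow_ne_zero _ hκ0
  have hsκ : star κ = κ⁻¹ := eq_inv_of_mul_eq_one_right hκκ
  have hsν : star ν = ν⁻¹ := by rw [hν, star_pow, hsκ, inv_pow]
  -- the elements lie in the field
  have hyE : y ∈ EF hS ι := by rw [← ht]; exact mem_EF_ι t
  obtain ⟨yE, hyE'⟩ := (hE _).mpr hyE
  obtain ⟨r, hr⟩ := hwy
  obtain ⟨wE, hwE⟩ : ∃ wE : E, jE wE = w := by
    refine ⟨(1 - algebraMap K E (algebraMap k K r * s) * yE) *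
      (1 + algebraMap K E (algebraMap k K r * s) * yE)⁻¹, ?_⟩
    have h1 : jE (algebraMap K E (algebraMap k K r * s) * yE) =
        r • (algebraMap K D s * y) := by
      rw [map_mul, AlgHom.commutes, hyE', map_mul, mul_assoc, ← IsScalarTower.algebraMap_apply,
        Algebra.smul_def]
    rw [map_mul, map_inv₀, map_sub, map_add, map_one, h1, hr, cay]
  obtain ⟨νE, hνE⟩ : ∃ νE : E, jE νE = ν :=
    ⟨(wE ^ 6 * algebraMap K E c⁻¹) ^ e, by
      rw [map_pow, map_mul, map_pow, AlgHom.commutes, hwE, ← hκ, ← hν]⟩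
  have hνE0 : νE ≠ 0 := by
    rintro rfl
    rw [map_zero] at hνE
    exact hν0 hνE.symm
  obtain ⟨C, hC⟩ : ∃ C, C = 2 + ν * ν + (ν * ν)⁻¹ := ⟨_, rfl⟩
  rw [← hC]
  have hCE : jE (2 + νE * νE + (νE * νE)⁻¹) = C := by
    rw [map_add, map_add, map_inv₀, map_mul, hνE, map_ofNat, hC]
  have hCs : star C = C := by
    rw [hC, star_add, star_add, star_inv₀, star_mul, hsν]
    have h2 : star (2 : D) = 2 := by
      have : (2 : D) = algebraMap k D 2 := by rw [map_ofNat]
      rw [this, Even.star_alg hS]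
    rw [h2, ← _root_.mul_inv_rev, inv_inv, add_right_comm]
  obtain ⟨a, ha⟩ := EF_sym (hS := hS) hsym ((hE _).mp ⟨_, hCE⟩) hCs
  -- the element generates the cubic field
  have hak : ∀ r : k, algebraMap k F r ≠ a := by
    intro r' hr'
    have h1 : jE (2 + νE * νE + (νE * νE)⁻¹) = jE (algebraMap K E (algebraMap k K r')) := by
      rw [hCE, ha, ← hr', AlgHom.commutes, AlgHom.commutes, ← IsScalarTower.algebraMap_apply]
    have h2 := jE.toRingHom.injective h1
    obtain ⟨x, hx⟩ : ∃ x, x = νE * νE := ⟨_, rfl⟩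
    have hx0 : x ≠ 0 := by rw [hx]; exact mul_ne_zero hνE0 hνE0
    have h4 : algebraMap K E 1 + algebraMap K E (2 - algebraMap k K r') * x +
        algebraMap K E 1 * x ^ 2 = 0 := by
      rw [← hx] at h2
      have h5 : 2 + x + x⁻¹ = algebraMap K E (algebraMap k K r') := h2
      rw [map_sub, map_ofNat, ← h5, map_one]
      field_simp
      ring
    have h5 : ∃ c' : K, algebraMap K E c' = x := by
      by_contra hcon
      push Not at hcon
      exact one_ne_zero (cub_indep hE3 hcon h4).1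
    obtain ⟨c', hc'⟩ := h5
    apply hnc
    have h6 : w ^ (12 * e) = algebraMap K D (c' * (c ^ e * c ^ e)) := by
      have h7 : ν * ν = algebraMap K D c' := by
        rw [← AlgHom.commutes jE c', hc', hx, map_mul, hνE]
      have h8 : w ^ 6 = κ * algebraMap K D c := by
        rw [hκ, mul_assoc, ← map_mul, inv_mul_cancel₀ hc0, map_one, mul_one]
      have h9 : Commute κ (algebraMap K D c) := (Algebra.commutes c κ).symm
      have h10 : w ^ (6 * e) = ν * algebraMap K D (c ^ e) := by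
        rw [pow_mul, h8, h9.mul_pow, hν, map_pow]
      have h11 : 12 * e = 6 * e + 6 * e := by ring
      rw [h11, pow_add, h10, map_mul, map_mul, ← h7]
      have h12 : algebraMap K D (c ^ e) * ν = ν * algebraMap K D (c ^ e) :=
        Algebra.commutes _ _
      calc ν * algebraMap K D (c ^ e) * (ν * algebraMap K D (c ^ e)) =
          ν * (algebraMap K D (c ^ e) * ν) * algebraMap K D (c ^ e) := by
            simp only [mul_assoc]
        _ = _ := by rw [h12]; simp only [mul_assoc]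
    rw [h6]
    exact Algebra.commutes _ _
  -- the discriminants
  have hD72 : finrank k D = 72 := by
    rw [← Module.finrank_mul_finrank k K D, hS.rank, hdeg]
    norm_num
  have h1 : Dt k C = dsc k a := by rw [ha]; exact Dt_eq hD72 h3 ι a
  have h2 : dsc k t = cd (minpoly k y) := by
    rw [← hmin]
    have hint : IsIntegral k t := Algebra.IsIntegral.isIntegral t
    exact dsc_coeff h3 htk (minpoly.monic hint) (by rw [hmin]; exact hy.deg) (minpoly.aeval k t)
  obtain ⟨P, hP⟩ := dsc_change h3 htk a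
  have h4 : Dt k C ≠ 0 := by rw [h1]; exact dsc_ne h3 hak
  refine ⟨h4, fun p hp u hu hup => ?_⟩
  have hP0 : P ≠ 0 := by
    rintro rfl
    rw [h1, hP, zero_pow two_ne_zero, zero_mul] at h4
    exact h4 rfl
  obtain ⟨u', hu'⟩ : ∃ u' : kˣ, (u' : k) = d * cd (minpoly k y) :=
    ⟨Units.mk0 _ (mul_ne_zero d.ne_zero hy.ne), rfl⟩
  apply hy.cls p hp u' hu'
  have h5 : u' = u * (Units.mk0 P hP0)⁻¹ ^ 2 := by
    ext
    rw [hu', Units.val_mul, Units.val_pow_eq_pow_val, Units.val_inv_eq_inv_val, Units.val_mk0, hu,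
      h1, hP, h2]
    field_simp
  rw [h5]
  exact mul_mem hup (Sq_le_LSp p ⟨_, rfl⟩)

end Vale.Agent.P011.Six.H586
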