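import Vale.Agent.P011.Six.H586.LocS
import Vale.Agent.P011.Six.H586.Cen
import Vale.Agent.P011.Six.H586.Disc
import Vale.Agent.P011.Six.H422.Sk

/-!
Degree six (helper586): a symmetric element of degree three in the centralizer of the quaternion
algebra, with prescribed local discriminants.
-/

open Module Matrix Polynomial NumberField IsDedekindDomain

set_option linter.unusedSectionVars false

namespace Vale.Agent.P011.Six.H586

open Vale.Agent.P011.Arith Vale.Agent.P011.Even Vale.Agent.P011.Two Vale.Agent.P011.One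
open Vale.Agent.P011.Six.H359 (Fr)

section gen

variable {k K D : Type} [Field k] [NumberField k] [Field K] [NumberField K] [StarRing K]
    [DivisionRing D] [StarRing D] [Algebra k K] [Algebra k D] [Algebra K D] [IsScalarTower k K D]
    {d : kˣ} {s : K} {N : ℕ}

/-- The splitting conditions at a place. -/
def SplP (k K D : Type) [Field k] [NumberField k] [Field K] [DivisionRing D] [Algebra k K]
    [Algebra K D] (d : kˣ) : Pl k → Prop
  | .inl v => d ∈ LS (v.valuation k) → ∃ (φ : K →+* v.adicCompletion k)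
      (f : D →+* Matrix (Fin 3) (Fin 3) (v.adicCompletion k)), SplAt K D 3 v φ f
  | .inr τ => 0 < τ d → ∃ (φ : K →+* ℝ) (f : D →+* Matrix (Fin 3) (Fin 3) ℝ),
      (∀ c : k, φ (algebraMap k K c) = τ c) ∧
        ∀ c : K, f (algebraMap K D c) = Matrix.scalar (Fin 3) (φ c)

theorem goodY_all (hS : Setting k K D d s) (hdeg : finrank K D = 3 ^ 2)
    (B : Basis (Fin N) k D) (p : Pl k) (hp : SplP k K D d p) (u : kˣ) (hu : u ∉ LSp p) :
    ∃ (x : Fin N → k) (δ : ℝ), 0 < δ ∧ ∀ β : D, (∀ j, plAbv p (B.repr β j - x j) < δ) →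
      GoodY (d : k) p (β * star β) := by
  rcases p with v | τ
  · by_cases hv : d ∈ LS (v.valuation k)
    · obtain ⟨φ, f, h⟩ := hp hv
      exact goodY_inl_split hS hdeg B v φ h.base f h.map u hu
    · exact goodY_inl hS hdeg B v hv
  · rcases lt_trichotomy (τ d) 0 with h | h | h
    · exact goodY_inr hS hdeg B τ h
    · exact absurd h ((_root_.map_ne_zero τ).mpr d.ne_zero)
    · obtain ⟨φ, f, h1, h2⟩ := hp h
      exact goodY_inr_split hS hdeg B τ φ h1 f h2

/-- The global element. -/
theorem exists_beta' (hS : Setting k K D d s) (hdeg : finrank K D = 3 ^ 2) {T : Set (Pl k)}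
    (hT : T.Finite) (hp : ∀ p ∈ T, SplP k K D d p) (u : kˣ) (hu : ∀ p ∈ T, u ∉ LSp p) :
    ∃ β : D, ∀ p ∈ T, GoodY (d : k) p (β * star β) := by
  classical
  have := hS.fin_k
  let B := Module.finBasis k D
  have h1 : ∀ p : Pl k, ∃ (x : Fin (finrank k D) → k) (δ : ℝ), 0 < δ ∧
      (p ∈ T → ∀ β : D, (∀ j, plAbv p (B.repr β j - x j) < δ) →
        GoodY (d : k) p (β * star β)) := by
    intro p
    by_cases hpT : p ∈ T
    · obtain ⟨x, δ, hδ, h⟩ := goodY_all hS hdeg B p (hp p hpT) u (hu p hpT)
      exact ⟨x, δ, hδ, fun _ => h⟩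
    · exact ⟨0, 1, one_pos, fun h => absurd h hpT⟩
  choose x δ hδ hx using h1
  have happ : ∀ j, ∃ f : k, ∀ p ∈ T, plAbv p (f - x p j) < δ p := fun j =>
    approx T hT (fun p => x p j) δ hδ
  choose f hf using happ
  refine ⟨∑ j, f j • B j, fun p hpT => hx p hpT _ fun j => ?_⟩
  rw [B.repr_sum_self]
  exact hf j p hpT

end gen

section six

variable {k K D : Type} [Field k] [NumberField k] [Field K] [NumberField K] [StarRing K]
    [DivisionRing D] [StarRing D] [Algebra k K] [Algebra k D] [Algebra K D] [IsScalarTower k K D]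
    {d : kˣ} {s : K} {al be : kˣ} {i j : D}

/-- The properties of the chosen symmetric element. -/
structure YEl (d : kˣ) (al be : kˣ) (i j y : D) : Prop where
  sym : star y = y
  ci : y * i = i * y
  cj : y * j = j * y
  deg : (minpoly k y).natDegree = 3
  ne : cd (minpoly k y) ≠ 0
  cls : ∀ p ∈ bad al be, ∀ u : kˣ, (u : k) = d * cd (minpoly k y) → u ∉ LSp p

theorem exists_Y (hS : Setting k K D d s) (hdeg : finrank K D = 6 ^ 2) (hF : Fr k al be i j)
    (hbad : (bad al be).Nonempty)
    (hp : ∀ p ∈ bad al be, SplP k K (CC K i j) d p) : ∃ y : D, YEl (k := k) d al be i j y := by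
  let _ := starCC K hF.si hF.sj
  have hSC := setting_CC hS hF
  have hdC := finrank_CC9 hS hF hdeg
  have := hSC.fin
  have := hSC.cen
  have := hSC.fin_k
  have := hS.fin_k
  obtain ⟨β, hβ⟩ := exists_beta' hSC hdC (bad_finite al be) hp al
    (fun p hp => notMem_LSp_of_bad hp)
  obtain ⟨z, hz⟩ : ∃ z, z = β * star β := ⟨_, rfl⟩
  have hzs : star z = z := by rw [hz, star_mul, star_star]
  simp only [← hz] at hβ
  have hmin : minpoly k (vk k z : D) = minpoly k z := minpoly.algHom_eq (vk k) (vv_inj K) z
  have hint : IsIntegral k z := IsIntegral.of_finite k z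
  have hdeg3 : (minpoly k z).natDegree = 3 := by
    have h1 : (minpoly K z).natDegree = (minpoly k z).natDegree := by
      rw [H422.minpoly_sym hSC hzs, natDegree_map]
    have h2 : (minpoly K z).natDegree ∣ 3 := by
      obtain ⟨L, _, _, _, jL, u', hL, hju⟩ := W.exists_maxfield hdC z
      have h3 : minpoly K z = minpoly K u' := by
        rw [← hju, minpoly.algHom_eq jL jL.toRingHom.injective u']
      have h4 : FiniteDimensional K L := Module.finite_of_finrank_pos (by rw [hL]; norm_num)
      rw [h3, ← hL, ← IntermediateField.adjoin.finrank (IsIntegral.of_finite K u')]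
      exact ⟨finrank (IntermediateField.adjoin K {u'}) L,
        (Module.finrank_mul_finrank K _ L).symm⟩
    rw [h1] at h2
    rcases (Nat.dvd_prime Nat.prime_three).mp h2 with h3 | h3
    · exfalso
      obtain ⟨p, hp⟩ := hbad
      have h4 := (hβ p hp).1
      have h5 := minpoly.aeval k z
      rw [aeval_eq_sum_range, h3, Finset.sum_range_succ, Finset.sum_range_one] at h5
      have h6 := Fintype.linearIndependent_iff.mp h4
        ![(minpoly k z).coeff 0, (minpoly k z).coeff 1, 0] (by
          rw [Fin.sum_univ_three]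
          simpa using h5) 1
      have h7 : (minpoly k z).coeff 1 = 1 := by
        rw [← h3]
        exact minpoly.monic hint
      simp [h7] at h6
    · exact h3
  refine ⟨vk k z, ?_, vv_i K z, vv_j K z, by rw [hmin, hdeg3], ?_, fun p hp => ?_⟩
  · exact congrArg (vv K) hzs
  · obtain ⟨p, hp⟩ := hbad
    rw [hmin]
    exact ((hβ p hp).2 _ (minpoly.monic hint) hdeg3 (minpoly.aeval k z)).1
  · rw [hmin]
    exact ((hβ p hp).2 _ (minpoly.monic hint) hdeg3 (minpoly.aeval k z)).2

end six

end Vale.Agent.P011.Six.H586
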